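import Vale.Agent.P296.Model.Surface

/-!
# The bundle of rank seven and the line bundles

Dual fibre coordinates are `η = (φ, a) ∈ ℂ⁶ × ℂ`.  A translation by `k τ` multiplies `φ` by `q` and `a`
by `q / M`; at infinity the coordinates are `ψ = t² φ + a (t θ + θ' + θ'' / t)`, `b = -a / t²`.
-/

noncomputable section

namespace Vale.Agent.P296

open scoped Manifold ContDiff Topology Matrix
open Filter

/-- The change of coordinates of a section of the tautological line bundle. -/
def tl (A : ℂ) : Bool → Bool → ℂ → ℂ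
  | false, false => fun _ => 1
  | false, true => fun w => w + A
  | true, false => fun w => w
  | true, true => fun w => 1 + A * w

/-- The off-diagonal part of the change of dual coordinates, linear in the jet `p₀, p₁, p₂`. -/
def tv (A p₀ p₁ p₂ : ℂ) : Bool → Bool → ℂ → ℂ
  | false, false => fun _ => 0
  | false, true => fun w =>
      (w + A) * p₀ + (p₁ + A * p₀) + (p₂ + 2 * A * p₁ + A ^ 2 * p₀) / (w + A)
  | true, false => fun w => p₀ / w + p₁ + p₂ * w
  | true, true => fun w =>
      (A ^ 3 * p₀ + (3 * A ^ 2 + A ^ 3 * w) * p₁ + (3 * A + 3 * A ^ 2 * w + A ^ 3 * w ^ 2) * p₂)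
        / (1 + A * w)

/-- The change of the last dual coordinate. -/
def td (A : ℂ) : Bool → Bool → ℂ → ℂ
  | false, false => fun _ => 1
  | false, true => fun w => -((w + A) ^ 2)⁻¹
  | true, false => fun w => -(w ^ 2)⁻¹
  | true, true => fun w => ((1 + A * w) ^ 2)⁻¹

section algebra

open Surf

variable {A B w p₀ p₁ p₂ : ℂ} {a b c : Bool}

lemma tl_ne (h : stepOK A a b w) : tl A a b w ≠ 0 := by
  cases a <;> cases b <;> simp_all [tl, stepOK]

lemma tl_self (w : ℂ) : tl 0 a a w = 1 := by cases a <;> simp [tl]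

lemma td_self (w : ℂ) : td 0 a a w = 1 := by cases a <;> simp [td]

lemma tv_self (w : ℂ) : tv 0 p₀ p₁ p₂ a a w = 0 := by cases a <;> simp [tv]

lemma tv_smul (A M p₀ p₁ p₂ w : ℂ) (a b : Bool) :
    tv A (M * p₀) (M * p₁) (M * p₂) a b w = M * tv A p₀ p₁ p₂ a b w := by
  cases a <;> cases b <;> simp only [tv] <;> ring

lemma tl_comp (h1 : stepOK A a b w) :
    tl B b c (step A a b w) * tl A a b w = tl (A + B) a c w := by
  cases a <;> cases b <;> cases c <;> simp only [tl, step, stepOK] at h1 ⊢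
  · ring
  · ring
  · exact inv_mul_cancel₀ h1
  · rw [add_mul, one_mul, mul_assoc, inv_mul_cancel₀ h1]; ring
  · ring
  · rw [add_mul, div_mul_cancel₀ _ h1]; ring
  · exact div_mul_cancel₀ _ h1
  · rw [add_mul, one_mul, mul_assoc, div_mul_cancel₀ _ h1]; ring

lemma td_eq (A w : ℂ) (a b : Bool) :
    td A a b w = (if a = b then 1 else -1) * (tl A a b w ^ 2)⁻¹ := by
  cases a <;> cases b <;> simp [td, tl]

lemma td_comp (h1 : stepOK A a b w) :
    td B b c (step A a b w) * td A a b w = td (A + B) a c w := by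
  rw [td_eq, td_eq, td_eq, ← tl_comp (B := B) (c := c) h1, mul_pow, mul_inv]
  cases a <;> cases b <;> cases c <;> simp

lemma tv_comp (h1 : stepOK A a b w) (h2 : stepOK B b c (step A a b w))
    (h3 : stepOK (A + B) a c w) :
    tl B b c (step A a b w) ^ 2 * tv A p₀ p₁ p₂ a b w
      + td A a b w * tv B p₀ (p₁ + A * p₀) (p₂ + 2 * A * p₁ + A ^ 2 * p₀) b c (step A a b w)
      = tv (A + B) p₀ p₁ p₂ a c w := by
  cases a <;> cases b <;> cases c <;> simp only [tl, td, tv, step, stepOK] at h1 h2 h3 ⊢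
  · ring
  · rw [add_assoc w A B]
    generalize hS : w + (A + B) = S at h3 ⊢
    field_simp
    subst hS
    ring
  · generalize hR : w + A = R at h1 ⊢
    field_simp
    subst hR
    ring
  · have e : 1 + B * (w + A)⁻¹ = (w + (A + B)) / (w + A) := by field_simp; ring
    rw [e]
    generalize hR : w + A = R at h1 ⊢
    generalize hS : w + (A + B) = S at h3 ⊢
    field_simp
    subst hR hS
    ring
  · ring
  · have h4 : 1 + (A + B) * w ≠ 0 := by
      intro h
      refine h2 ?_
      field_simp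
      linear_combination h
    have e : (1 + A * w) / w + B = (1 + (A + B) * w) / w := by field_simp; ring
    rw [e]
    generalize hS : 1 + (A + B) * w = S at h4 ⊢
    field_simp
    subst hS
    ring
  · generalize hR : 1 + A * w = R at h1 ⊢
    have hw : w ≠ 0 := h3
    field_simp
    subst hR
    ring
  · have e : 1 + B * (w / (1 + A * w)) = (1 + (A + B) * w) / (1 + A * w) := by
      rw [mul_div, one_add_div h1]; ring
    rw [e]
    generalize hR : 1 + A * w = R at h1 ⊢
    generalize hS : 1 + (A + B) * w = S at h3 ⊢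
    field_simp
    subst hR hS
    ring

end algebra

lemma mult_hasDerivAt (τ a b : ℂ) (k : ℤ) (z : ℂ) :
    HasDerivAt (mult τ a b k) ((k : ℂ) * a * mult τ a b k z) z := by
  have h := (((((hasDerivAt_id z).const_mul a).add_const b).const_mul (k : ℂ)).add_const
    (a * τ * ((k : ℂ) * (k - 1) / 2))).cexp
  simp only [id_eq, mul_one] at h
  exact h.congr_deriv (by simp only [mult]; ring)

lemma contDiff_mult (τ a b : ℂ) (k : ℤ) {n : ℕ∞ω} : ContDiff ℂ n (mult τ a b k) := by
  unfold mult; fun_prop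

namespace ModelData

variable (D : ModelData)

/-- The first derivative of a theta function. -/
def θ₁ (n : Fin 6) : ℂ → ℂ := deriv (D.θ n)

/-- The second derivative of a theta function. -/
def θ₂ (n : Fin 6) : ℂ → ℂ := deriv (D.θ₁ n)

lemma contDiff_θ (n : Fin 6) {k : ℕ∞ω} : ContDiff ℂ k (D.θ n) := (D.hθ n).contDiff

lemma hθ₁ (n : Fin 6) : Differentiable ℂ (D.θ₁ n) := fun z =>
  ((D.hθ n).analyticAt z).deriv.differentiableAt

lemma hθ₂ (n : Fin 6) : Differentiable ℂ (D.θ₂ n) := fun z =>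
  (((D.hθ₁ n).analyticAt z).deriv).differentiableAt

lemma θ_translate (n : Fin 6) (z : ℂ) (m k : ℤ) :
    D.θ n (z + m + k * D.τ) = mult D.τ D.α D.β k z * D.θ n z := by
  have hp : ∀ (u : ℂ) (l : ℤ), D.θ n (u + l) = D.θ n u := fun u l => by
    simpa using (show Function.Periodic (D.θ n) 1 from D.per n).int_mul l u
  rw [show z + m + k * D.τ = z + k * D.τ + m by ring, hp]
  induction k using Int.induction_on generalizing z with
  | zero => simp [mult_zero]
  | succ l ih =>
    rw [show z + ((l : ℤ) + 1 : ℤ) * D.τ = (z + (l : ℤ) * D.τ) + D.τ by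
      push_cast; ring, D.quasi, ih z, mult_add]
    simp [mult]
    ring
  | pred l ih =>
    have h := D.quasi n (z + ((-(l : ℤ) - 1 : ℤ) : ℂ) * D.τ)
    rw [show z + ((-(l : ℤ) - 1 : ℤ) : ℂ) * D.τ + D.τ = z + ((-(l : ℤ) : ℤ) : ℂ) * D.τ by
      push_cast; ring, ih z] at h
    have e := mult_add D.τ D.α D.β (-(l : ℤ) - 1) 1 z
    rw [sub_add_cancel] at e
    have e1 : mult D.τ D.α D.β 1 (z + ((-(l : ℤ) - 1 : ℤ) : ℂ) * D.τ)
        = Complex.exp (D.α * (z + ((-(l : ℤ) - 1 : ℤ) : ℂ) * D.τ) + D.β) := by simp [mult]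
    rw [e, e1] at h
    exact mul_left_cancel₀ (Complex.exp_ne_zero _) (by rw [← h]; ring)

lemma θ₁_translate (n : Fin 6) (z : ℂ) (m k : ℤ) :
    D.θ₁ n (z + m + k * D.τ)
      = mult D.τ D.α D.β k z * (D.θ₁ n z + k * D.α * D.θ n z) := by
  have h1 : HasDerivAt (fun u => D.θ n (u + (m + k * D.τ))) (D.θ₁ n (z + (m + k * D.τ))) z :=
    ((D.hθ n _).hasDerivAt).comp_add_const z _
  have h2 := (mult_hasDerivAt D.τ D.α D.β k z).mul (D.hθ n z).hasDerivAt
  have e : (fun u => D.θ n (u + (m + k * D.τ))) = fun u => mult D.τ D.α D.β k u * D.θ n u :=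
    funext fun u => by rw [← add_assoc, θ_translate]
  rw [e] at h1
  rw [show z + m + k * D.τ = z + (m + k * D.τ) by ring, h1.unique h2, θ₁]
  ring

lemma θ₂_translate (n : Fin 6) (z : ℂ) (m k : ℤ) :
    D.θ₂ n (z + m + k * D.τ) = mult D.τ D.α D.β k z
      * (D.θ₂ n z + 2 * (k * D.α) * D.θ₁ n z + (k * D.α) ^ 2 * D.θ n z) := by
  have h1 : HasDerivAt (fun u => D.θ₁ n (u + (m + k * D.τ))) (D.θ₂ n (z + (m + k * D.τ))) z :=
    ((D.hθ₁ n _).hasDerivAt).comp_add_const z _
  have h2 := (mult_hasDerivAt D.τ D.α D.β k z).mul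
    ((D.hθ₁ n z).hasDerivAt.add ((D.hθ n z).hasDerivAt.const_mul ((k : ℂ) * D.α)))
  have e : (fun u => D.θ₁ n (u + (m + k * D.τ)))
      = fun u => mult D.τ D.α D.β k u * (D.θ₁ n u + k * D.α * D.θ n u) :=
    funext fun u => by rw [← add_assoc, θ₁_translate]
  rw [e] at h1
  rw [show z + m + k * D.τ = z + (m + k * D.τ) by ring, h1.unique h2]
  simp only [θ₂, θ₁, Pi.add_apply]
  ring

/-- The coefficient on `φ` of the change of dual coordinates from kind `a` to kind `b` along the
translation by `k τ`, at the point `(z, u)`. -/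
def coefC (k : ℤ) (a b : Bool) (z u : ℂ) : ℂ :=
  (mult D.τ D.γ D.δ k z)⁻¹ * tl (k * D.α) a b u ^ 2

/-- The coefficient of the last coordinate in the new `φ`. -/
def coefV (k : ℤ) (a b : Bool) (z u : ℂ) (n : Fin 6) : ℂ :=
  (mult D.τ D.γ D.δ k z)⁻¹ * tv (k * D.α) (D.θ n z) (D.θ₁ n z) (D.θ₂ n z) a b u

/-- The coefficient on the last coordinate. -/
def coefD (k : ℤ) (a b : Bool) (z u : ℂ) : ℂ :=
  (mult D.τ D.γ D.δ k z)⁻¹ * td (k * D.α) a b u * (mult D.τ D.α D.β k z)⁻¹

/-- The change of dual coordinates `(φ, a)` along the translation by `k τ` between the two kinds. -/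
def change (k : ℤ) (a b : Bool) (z u : ℂ) (η : (Fin 6 → ℂ) × ℂ) : (Fin 6 → ℂ) × ℂ :=
  (D.coefC k a b z u • η.1 + η.2 • D.coefV k a b z u, D.coefD k a b z u * η.2)

section comp

open Surf

variable {D} {k l m : ℤ} {a b c : Bool} {z u : ℂ}

lemma coef_self (z u : ℂ) : D.coefC 0 a a z u = 1 ∧ D.coefD 0 a a z u = 1
    ∧ ∀ n, D.coefV 0 a a z u n = 0 := by
  simp [coefC, coefD, coefV, mult_zero, tl_self, td_self, tv_self]

lemma twist_comp' (p q : ℂ) (hp : Complex.exp p = 1) (k l m : ℤ) (z : ℂ) :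
    mult D.τ p q l (z + m + k * D.τ) * mult D.τ p q k z = mult D.τ p q (k + l) z := by
  rw [mult_add, add_right_comm, mult_add_int _ _ _ hp]; ring

lemma coefC_comp (h1 : stepOK (k * D.α) a b u) :
    D.coefC l b c (z + m + k * D.τ) (step (k * D.α) a b u) * D.coefC k a b z u
      = D.coefC (k + l) a c z u := by
  simp only [coefC, Int.cast_add, add_mul]
  rw [← twist_comp' (D := D) D.γ D.δ D.hγ k l m z, ← tl_comp h1, mul_inv]
  ring

lemma coefD_comp (h1 : stepOK (k * D.α) a b u) :
    D.coefD l b c (z + m + k * D.τ) (step (k * D.α) a b u) * D.coefD k a b z u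
      = D.coefD (k + l) a c z u := by
  simp only [coefD, Int.cast_add, add_mul]
  rw [← twist_comp' (D := D) D.γ D.δ D.hγ k l m z, ← twist_comp' (D := D) D.α D.β D.hα k l m z,
    ← td_comp h1, mul_inv, mul_inv]
  ring

lemma coefV_comp (h1 : stepOK (k * D.α) a b u) (h2 : stepOK (l * D.α) b c (step (k * D.α) a b u))
    (h3 : stepOK (k * D.α + l * D.α) a c u) (n : Fin 6) :
    D.coefC l b c (z + m + k * D.τ) (step (k * D.α) a b u) * D.coefV k a b z u n
      + D.coefD k a b z u * D.coefV l b c (z + m + k * D.τ) (step (k * D.α) a b u) n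
      = D.coefV (k + l) a c z u n := by
  simp only [coefC, coefV, coefD, Int.cast_add, add_mul]
  rw [← twist_comp' (D := D) D.γ D.δ D.hγ k l m z, ← tv_comp h1 h2 h3, D.θ_translate,
    D.θ₁_translate, D.θ₂_translate, tv_smul, mul_inv]
  have hM : (mult D.τ D.α D.β k z)⁻¹ * mult D.τ D.α D.β k z = 1 :=
    inv_mul_cancel₀ (mult_ne _ _ _ _ _)
  linear_combination ((mult D.τ D.γ D.δ k z)⁻¹ * (mult D.τ D.γ D.δ l (z + m + k * D.τ))⁻¹
    * td (k * D.α) a b u
    * tv (l * D.α) (D.θ n z) (D.θ₁ n z + k * D.α * D.θ n z)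
        (D.θ₂ n z + 2 * (k * D.α) * D.θ₁ n z + (k * D.α) ^ 2 * D.θ n z) b c
        (step (k * D.α) a b u)) * hM

lemma change_comp (h1 : stepOK (k * D.α) a b u) (h2 : stepOK (l * D.α) b c (step (k * D.α) a b u))
    (h3 : stepOK (k * D.α + l * D.α) a c u) (η : (Fin 6 → ℂ) × ℂ) :
    D.change l b c (z + m + k * D.τ) (step (k * D.α) a b u) (D.change k a b z u η)
      = D.change (k + l) a c z u η := by
  refine Prod.ext (funext fun n => ?_) ?_
  · simp only [change, Pi.add_apply, Pi.smul_apply, smul_eq_mul]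
    linear_combination η.1 n * coefC_comp (D := D) (l := l) (c := c) (m := m) (z := z) h1
      + η.2 * coefV_comp (D := D) (m := m) (z := z) h1 h2 h3 n
  · simp only [change]
    linear_combination η.2 * coefD_comp (D := D) (l := l) (c := c) (m := m) (z := z) h1

end comp

end ModelData

namespace Surf

variable {D : ModelData} {i j l : Idx} {x : Surf D}

lemma chart_zero_transition (hi : x ∈ (chart i).source) (hj : x ∈ (chart j).source) :
    chart j x 0 = chart i x 0 + mm i j x + kk i j x * D.τ := by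
  rw [(chart_transition hi hj).1]; simp

lemma chart_one_transition (hi : x ∈ (chart i).source) (hj : x ∈ (chart j).source) :
    chart j x 1 = step (kk i j x * D.α) i.2.2 j.2.2 (chart i x 1) := by
  rw [(chart_transition hi hj).1]; simp

/-- The coefficient on `φ` of the change of dual coordinates from chart `i` to chart `j`. -/
def cf (i j : Idx) (x : Surf D) : ℂ :=
  D.coefC (kk i j x) i.2.2 j.2.2 (chart i x 0) (chart i x 1)

/-- The coefficient of `a` in the new `φ`. -/
def vf (i j : Idx) (x : Surf D) (n : Fin 6) : ℂ :=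
  D.coefV (kk i j x) i.2.2 j.2.2 (chart i x 0) (chart i x 1) n

/-- The coefficient on `a`. -/
def df (i j : Idx) (x : Surf D) : ℂ :=
  D.coefD (kk i j x) i.2.2 j.2.2 (chart i x 0) (chart i x 1)

lemma cf_comp (hi : x ∈ (chart i).source) (hj : x ∈ (chart j).source) (hl : x ∈ (chart l).source) :
    cf j l x * cf i j x = cf i l x := by
  rw [cf, cf, cf, chart_zero_transition hi hj, chart_one_transition hi hj, kk_add hi hj hl]
  exact ModelData.coefC_comp (chart_transition hi hj).2

lemma df_comp (hi : x ∈ (chart i).source) (hj : x ∈ (chart j).source) (hl : x ∈ (chart l).source) :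
    df j l x * df i j x = df i l x := by
  rw [df, df, df, chart_zero_transition hi hj, chart_one_transition hi hj, kk_add hi hj hl]
  exact ModelData.coefD_comp (chart_transition hi hj).2

lemma vf_comp (hi : x ∈ (chart i).source) (hj : x ∈ (chart j).source) (hl : x ∈ (chart l).source)
    (n : Fin 6) : cf j l x * vf i j x n + df i j x * vf j l x n = vf i l x n := by
  have h2 := (chart_transition hj hl).2
  have h3 := (chart_transition hi hl).2
  rw [chart_one_transition hi hj] at h2
  rw [kk_add hi hj hl, Int.cast_add, add_mul] at h3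
  rw [cf, vf, vf, vf, df, chart_zero_transition hi hj, chart_one_transition hi hj,
    kk_add hi hj hl]
  exact ModelData.coefV_comp (chart_transition hi hj).2 h2 h3 n

end Surf

/-- Projection to a coordinate. -/
def prj (n : Fin 7) : Cn 7 →L[ℂ] ℂ := PiLp.proj 2 (fun _ : Fin 7 => ℂ) n

/-- The map `(y, u) ↦ (c y, ∑ v y + d u)` of primal coordinates. -/
def triMap (c : ℂ) (v : Fin 6 → ℂ) (d : ℂ) : Cn 7 →L[ℂ] Cn 7 :=
  c • ContinuousLinearMap.id ℂ (Cn 7)
    + (∑ n : Fin 6, v n • prj n.castSucc + (d - c) • prj (Fin.last 6)).smulRight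
        (EuclideanSpace.single (Fin.last 6) (1 : ℂ))

lemma triMap_apply_castSucc (c : ℂ) (v : Fin 6 → ℂ) (d : ℂ) (u : Cn 7) (n : Fin 6) :
    triMap c v d u n.castSucc = c * u n.castSucc := by
  rw [triMap]
  simp [EuclideanSpace.single, (Fin.castSucc_lt_last n).ne, -Fin.reduceLast]

lemma triMap_apply_last (c : ℂ) (v : Fin 6 → ℂ) (d : ℂ) (u : Cn 7) :
    triMap c v d u (Fin.last 6) = ∑ n : Fin 6, v n * u n.castSucc + d * u (Fin.last 6) := by
  simp [triMap, prj, -Fin.reduceLast]
  ring

lemma triMap_comp (c c' d d' : ℂ) (v v' : Fin 6 → ℂ) (u : Cn 7) :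
    triMap c v d (triMap c' v' d' u)
      = triMap (c * c') (fun n => c' * v n + d * v' n) (d * d') u := by
  ext n
  induction n using Fin.lastCases with
  | last =>
    simp only [triMap_apply_last, triMap_apply_castSucc, mul_add, Finset.mul_sum, add_mul,
      Finset.sum_add_distrib]
    rw [← add_assoc, mul_assoc d d']
    congr 1
    congr 1
    · exact Finset.sum_congr rfl fun n _ => by ring
    · exact Finset.sum_congr rfl fun n _ => by ring
  | cast n => simp only [triMap_apply_castSucc]; ring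

namespace Surf

variable {D : ModelData} {i j l : Idx} {x : Surf D}

/-- The change of primal coordinates from chart `a` to chart `b`. -/
def primal (a b : Idx) (x : Surf D) : Cn 7 →L[ℂ] Cn 7 :=
  triMap (cf b a x) (vf b a x) (df b a x)

lemma chart_mem_maximalAtlas (i : Idx) :
    chart (D := D) i ∈ IsManifold.maximalAtlas 𝓘(ℂ, Cn 2) ω (Surf D) :=
  IsManifold.subset_maximalAtlas ⟨i, rfl⟩

lemma contMDiffAt_of_local {F : Type*} [NormedAddCommGroup F] [NormedSpace ℂ F] {f : Surf D → F}
    {g : Cn 2 → F} (hi : x ∈ (chart i).source) (hg : ContDiffAt ℂ ω g (chart i x))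
    (he : ∀ᶠ y in 𝓝 x, f y = g (chart i y)) : ContMDiffAt 𝓘(ℂ, Cn 2) 𝓘(ℂ, F) ω f x :=
  (hg.contMDiffAt.comp x (contMDiffAt_of_mem_maximalAtlas (chart_mem_maximalAtlas i) hi))
    |>.congr_of_eventuallyEq he

lemma contDiffAt_tl {A : ℂ} {a b : Bool} {w : ℂ} : ContDiffAt ℂ ω (tl A a b) w := by
  cases a <;> cases b <;> simp only [tl] <;> fun_prop

lemma contDiffAt_td {A : ℂ} {a b : Bool} {w : ℂ} (h : stepOK A a b w) :
    ContDiffAt ℂ ω (td A a b) w := by
  cases a <;> cases b <;> simp only [td, stepOK] at h ⊢ <;>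
    fun_prop (disch := simp [h])

lemma contDiffAt_tv {A : ℂ} {a b : Bool} {p q r : Cn 2 → ℂ} {u : Cn 2} (h : stepOK A a b (u 1))
    (hp : ContDiffAt ℂ ω p u) (hq : ContDiffAt ℂ ω q u) (hr : ContDiffAt ℂ ω r u) :
    ContDiffAt ℂ ω (fun v => tv A (p v) (q v) (r v) a b (v 1)) u := by
  cases a <;> cases b <;> simp only [tv, stepOK] at h ⊢ <;>
    fun_prop (disch := simp [h])

lemma contMDiffAt_primal (hi : x ∈ (chart i).source) (hj : x ∈ (chart j).source) :
    ContMDiffAt 𝓘(ℂ, Cn 2) 𝓘(ℂ, Cn 7 →L[ℂ] Cn 7) ω (primal j i) x := by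
  obtain ⟨-, hok⟩ := chart_transition hi hj
  let k := kk i j x
  have h0 : ContDiffAt ℂ ω (fun u : Cn 2 => u 0) (chart i x) := by fun_prop
  have h1 : ContDiffAt ℂ ω (fun u : Cn 2 => u 1) (chart i x) := by fun_prop
  have hM (a b : ℂ) : ContDiffAt ℂ ω (fun u : Cn 2 => (mult D.τ a b k (u 0))⁻¹) (chart i x) :=
    ((contDiff_mult _ _ _ _).contDiffAt.comp (chart i x) h0).inv (mult_ne _ _ _ _ _)
  have hth (f : ℂ → ℂ) (hf : Differentiable ℂ f) :
      ContDiffAt ℂ ω (fun u : Cn 2 => f (u 0)) (chart i x) :=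
    hf.contDiff.contDiffAt.comp (chart i x) h0
  refine contMDiffAt_of_local hi (g := fun u => triMap
    ((mult D.τ D.γ D.δ k (u 0))⁻¹ * tl (k * D.α) i.2.2 j.2.2 (u 1) ^ 2)
    (fun n => (mult D.τ D.γ D.δ k (u 0))⁻¹ * tv (k * D.α) (D.θ n (u 0)) (D.θ₁ n (u 0))
      (D.θ₂ n (u 0)) i.2.2 j.2.2 (u 1))
    ((mult D.τ D.γ D.δ k (u 0))⁻¹ * td (k * D.α) i.2.2 j.2.2 (u 1)
      * (mult D.τ D.α D.β k (u 0))⁻¹)) ?_ ?_
  · have hc := (hM D.γ D.δ).mul (((contDiffAt_tl (A := k * D.α) (a := i.2.2) (b := j.2.2)).comp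
      (chart i x) h1).pow 2)
    have hd := ((hM D.γ D.δ).mul (((contDiffAt_td hok)).comp (chart i x) h1)).mul (hM D.α D.β)
    refine (hc.smul contDiffAt_const).add (ContDiffAt.smulRight ?_ contDiffAt_const)
    refine (ContDiffAt.sum fun n _ => ?_).add ((hd.sub hc).smul contDiffAt_const)
    exact ((hM D.γ D.δ).mul (contDiffAt_tv hok (hth _ (D.hθ n)) (hth _ (D.hθ₁ n))
      (hth _ (D.hθ₂ n)))).smul contDiffAt_const
  · filter_upwards [eventually_kk_mm hi hj] with y hy
    simp only [primal, cf, df, ModelData.coefC, ModelData.coefD]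
    rw [show vf i j y = fun n => (mult D.τ D.γ D.δ (kk i j y) (chart i y 0))⁻¹ *
      tv (kk i j y * D.α) (D.θ n (chart i y 0)) (D.θ₁ n (chart i y 0))
      (D.θ₂ n (chart i y 0)) i.2.2 j.2.2 (chart i y 1) from rfl, hy.1]

/-- The cocycle of the bundle of rank seven. -/
def coreE (D : ModelData) : VectorBundleCore ℂ (Surf D) (Cn 7) Idx where
  baseSet i := (chart i).source
  isOpen_baseSet i := (chart i).open_source
  indexAt := idxAt
  mem_baseSet_at := mem_idxAt
  coordChange := primal
  coordChange_self i x _ v := by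
    ext n
    induction n using Fin.lastCases with
    | last =>
      simp [primal, -Fin.reduceLast, triMap_apply_last, vf, df, kk_self, ModelData.coef_self]
    | cast n => simp [primal, triMap_apply_castSucc, cf, kk_self, ModelData.coef_self]
  continuousOn_coordChange i j x hx :=
    (contMDiffAt_primal hx.2 hx.1).continuousAt.continuousWithinAt
  coordChange_comp a b c x hx v := by
    obtain ⟨⟨ha, hb⟩, hc⟩ := hx
    rw [primal, primal, triMap_comp, primal]
    congr 2
    · rw [← cf_comp hc hb ha]; ring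
    · funext n; exact vf_comp hc hb ha n
    · rw [← df_comp hc hb ha]; ring

/-- The bundle of rank seven. -/
def bundle (D : ModelData) : HolBundle 2 7 (Surf D) where
  ι := Idx
  core := coreE D
  hol := ⟨fun _ _ _ hx => (contMDiffAt_primal hx.2 hx.1).contMDiffWithinAt⟩

lemma bundle_baseSet (i : Idx) : (bundle D).core.baseSet i = (chart (D := D) i).source := rfl

/-- The change of dual coordinates from chart `b` to chart `a`, first six coordinates. -/
lemma vecMul_g_castSucc (a b : Idx) (x : Surf D) (η : Fin 7 → ℂ) (n : Fin 6) :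
    (η ᵥ* (bundle D).g a b x) n.castSucc
      = cf b a x * η n.castSucc + η (Fin.last 6) * vf b a x n := by
  have h (i : Fin 7) : (bundle D).g a b x i n.castSucc
      = primal a b x (EuclideanSpace.single n.castSucc 1) i := rfl
  simp only [Matrix.vecMul, dotProduct, h]
  rw [Fin.sum_univ_castSucc]
  simp [primal, triMap_apply_castSucc, triMap_apply_last, -Fin.reduceLast, mul_comm]

/-- The change of the last dual coordinate. -/
lemma vecMul_g_last (a b : Idx) (x : Surf D) (η : Fin 7 → ℂ) :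
    (η ᵥ* (bundle D).g a b x) (Fin.last 6) = df b a x * η (Fin.last 6) := by
  have h (i : Fin 7) : (bundle D).g a b x i (Fin.last 6)
      = primal a b x (EuclideanSpace.single (Fin.last 6) 1) i := rfl
  simp only [Matrix.vecMul, dotProduct, h]
  rw [Fin.sum_univ_castSucc]
  simp [primal, triMap_apply_castSucc, triMap_apply_last, -Fin.reduceLast, mul_comm,
    (Fin.castSucc_lt_last _).ne]

end Surf

end Vale.Agent.P296
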