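import Vale.Agent.P296.Model.Data
import Vale.Agent.P296.Theta.Jets

/-!
# P296: rules of the frozen model

Periodicity and quasi-periodicity of the theta functions, their derivatives, the multipliers and
the gluing class; the maps between the charts are mutually inverse and intertwine `desc` with
`descI`; the weight; independence of the theta functions and of their jets.
-/

noncomputable section
namespace Vale.Agent.P296.Model

open Complex Filter Topology
open scoped Real ContDiff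

variable {τ : ℂ}

/-! ### The multiplier and the theta functions -/

lemma m_eq (τ z : ℂ) : m τ z = Theta.seriesFactor τ 6 * (Theta.coord z)⁻¹ ^ 6 :=
  Theta.mult_eq 6 _ z

lemma m_ne_zero (τ z : ℂ) : m τ z ≠ 0 :=
  mul_ne_zero Theta.seriesFactor_ne_zero (Complex.exp_ne_zero _)

lemma m_add_one (τ z : ℂ) : m τ (z + 1) = m τ z := by
  rw [m_eq, m_eq, Theta.coord_add, (Theta.coord_eq_one_iff (z := 1)).2 ⟨1, by simp⟩, mul_one]

lemma hasDerivAt_m (τ z : ℂ) : HasDerivAt (m τ) (kap * m τ z) z := by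
  have h := (((hasDerivAt_id z).const_mul (-2 * π * I * ((6 : ℤ) : ℂ))).cexp).const_mul
    (Theta.seriesFactor τ 6)
  refine h.congr_deriv ?_
  simp [m, Theta.mult, kap]
  ring

lemma differentiable_m (τ : ℂ) : Differentiable ℂ (m τ) := fun z => (hasDerivAt_m τ z).differentiableAt

lemma kap_ne_zero : kap ≠ 0 := by simp [kap, Real.pi_ne_zero, Complex.I_ne_zero]

lemma th_eq (τ : ℂ) (i : Fin 6) : th τ i = Theta.series τ 6 ((i : ℕ) : ℤ) := rfl

lemma th_mem (hτ : 0 < τ.im) (i : Fin 6) :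
    th τ i ∈ Theta.sections τ 6 (Theta.seriesFactor τ 6) :=
  Theta.series_mem hτ (by norm_num) _

lemma isSect_th (hτ : 0 < τ.im) (i : Fin 6) :
    Theta.IsSect τ 6 (Theta.seriesFactor τ 6) (th τ i) :=
  Theta.mem_sections_iff.1 (th_mem hτ i)

lemma differentiable_th (hτ : 0 < τ.im) (i : Fin 6) : Differentiable ℂ (th τ i) := (th_mem hτ i).1

lemma contDiff_th (hτ : 0 < τ.im) (i : Fin 6) {k : ℕ∞ω} : ContDiff ℂ k (th τ i) :=
  (differentiable_th hτ i).contDiff

lemma th_add_one (τ : ℂ) (i : Fin 6) (z : ℂ) : th τ i (z + 1) = th τ i z :=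
  Theta.series_add_one _ _

lemma th_add_tau (τ : ℂ) (i : Fin 6) (z : ℂ) : th τ i (z + τ) = m τ z * th τ i z := by
  rw [th_eq, m_eq]; exact Theta.series_add_tau _ _

/-! ### The multiplier over `q` periods -/

@[simp] lemma mq_zero (τ z : ℂ) : mq τ 0 z = 1 := by simp [mq]

lemma mq_succ (τ : ℂ) (q : ℕ) (z : ℂ) : mq τ (q + 1) z = mq τ q z * m τ (z + q * τ) :=
  Finset.prod_range_succ _ _

lemma mq_ne_zero (τ : ℂ) (q : ℕ) (z : ℂ) : mq τ q z ≠ 0 :=
  Finset.prod_ne_zero_iff.2 fun _ _ => m_ne_zero τ _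

lemma mq_add_one (τ : ℂ) (q : ℕ) (z : ℂ) : mq τ q (z + 1) = mq τ q z := by
  refine Finset.prod_congr rfl fun j _ => ?_
  rw [add_right_comm, m_add_one]

lemma hasDerivAt_mq (τ : ℂ) (q : ℕ) (z : ℂ) :
    HasDerivAt (mq τ q) (q * kap * mq τ q z) z := by
  induction q with
  | zero =>
    rw [show mq τ 0 = fun _ => (1 : ℂ) from funext (mq_zero τ)]
    simpa using hasDerivAt_const z (1 : ℂ)
  | succ q ih =>
    rw [show mq τ (q + 1) = fun x => mq τ q x * m τ (x + q * τ) from funext (mq_succ τ q)]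
    refine (ih.mul ((hasDerivAt_m τ _).comp_add_const z ((q : ℂ) * τ))).congr_deriv ?_
    push_cast
    ring

lemma differentiable_mq (τ : ℂ) (q : ℕ) : Differentiable ℂ (mq τ q) := fun z =>
  (hasDerivAt_mq τ q z).differentiableAt

lemma iteratedDeriv_mq (τ : ℂ) (q d : ℕ) :
    iteratedDeriv d (mq τ q) = fun z => ((q : ℂ) * kap) ^ d * mq τ q z := by
  induction d with
  | zero => simp
  | succ d ih =>
    rw [iteratedDeriv_succ, ih]
    funext z
    rw [((hasDerivAt_mq τ q z).const_mul _).deriv]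
    ring

lemma th_add_nat (τ : ℂ) (q : ℕ) (i : Fin 6) (z : ℂ) :
    th τ i (z + q * τ) = mq τ q z * th τ i z := by
  induction q with
  | zero => simp
  | succ q ih =>
    rw [show z + ((q + 1 : ℕ) : ℂ) * τ = z + q * τ + τ by push_cast; ring, th_add_tau, ih, mq_succ]
    ring

/-! ### The derivative vectors -/

lemma hasDerivAt_thd (hτ : 0 < τ.im) (d : ℕ) (z : ℂ) :
    HasDerivAt (thd τ d) (thd τ (d + 1) z) z := by
  refine hasDerivAt_pi.2 fun i => ?_
  have h : Differentiable ℂ (iteratedDeriv d (th τ i)) :=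
    (contDiff_th hτ i (k := (d + 1 : ℕ))).differentiable_iteratedDeriv d (by exact_mod_cast Nat.lt_succ_self d)
  simpa [thd, iteratedDeriv_succ] using (h z).hasDerivAt

lemma differentiable_thd (hτ : 0 < τ.im) (d : ℕ) : Differentiable ℂ (thd τ d) := fun z =>
  (hasDerivAt_thd hτ d z).differentiableAt

lemma contDiff_thd (hτ : 0 < τ.im) (d : ℕ) {k : ℕ∞ω} : ContDiff ℂ k (thd τ d) :=
  (differentiable_thd hτ d).contDiff

lemma thd_zero (τ z : ℂ) : thd τ 0 z = fun i => th τ i z := by funext i; simp [thd]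

lemma thd_add_one (τ : ℂ) (d : ℕ) (z : ℂ) : thd τ d (z + 1) = thd τ d z := by
  funext i
  have h := congrFun (iteratedDeriv_comp_add_const (n := d) (f := th τ i) (s := (1 : ℂ))) z
  rw [show (fun x => th τ i (x + 1)) = th τ i from funext (th_add_one τ i)] at h
  exact h.symm

/-- The jets over `q` periods: a unipotent rule. -/
lemma thd_add_nat (hτ : 0 < τ.im) (q d : ℕ) (z : ℂ) :
    thd τ d (z + q * τ) = mq τ q z • ∑ l ∈ Finset.range (d + 1),
      (((d.choose l : ℂ) * ((q : ℂ) * kap) ^ (d - l)) • thd τ l z) := by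
  funext i
  have h := congrFun (iteratedDeriv_comp_add_const (n := d) (f := th τ i) (s := (q : ℂ) * τ)) z
  rw [show (fun x => th τ i (x + q * τ)) = th τ i * mq τ q from
    funext fun x => by rw [th_add_nat]; exact mul_comm _ _,
    iteratedDeriv_mul (contDiff_th hτ i).contDiffAt (differentiable_mq τ q).contDiff.contDiffAt] at h
  refine h.symm.trans ?_
  simp only [Pi.smul_apply, Finset.sum_apply, smul_eq_mul, Finset.mul_sum, iteratedDeriv_mq]
  refine Finset.sum_congr rfl fun l _ => ?_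
  simp only [thd]
  ring

lemma thd0_add_nat (hτ : 0 < τ.im) (q : ℕ) (z : ℂ) :
    thd τ 0 (z + q * τ) = mq τ q z • thd τ 0 z := by
  simp [thd_add_nat hτ]

lemma thd1_add_nat (hτ : 0 < τ.im) (q : ℕ) (z : ℂ) :
    thd τ 1 (z + q * τ) = mq τ q z • (thd τ 1 z + ((q : ℂ) * kap) • thd τ 0 z) := by
  rw [thd_add_nat hτ]
  simp [Finset.sum_range_succ, add_comm]

lemma thd2_add_nat (hτ : 0 < τ.im) (q : ℕ) (z : ℂ) :
    thd τ 2 (z + q * τ) = mq τ q z •
      (thd τ 2 z + (2 * ((q : ℂ) * kap)) • thd τ 1 z + (((q : ℂ) * kap) ^ 2) • thd τ 0 z) := by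
  rw [thd_add_nat hτ]
  simp [Finset.sum_range_succ]
  abel

lemma mq_one (τ z : ℂ) : mq τ 1 z = m τ z := by simp [mq_succ]

lemma thd_add_tau (hτ : 0 < τ.im) (d : ℕ) (z : ℂ) :
    thd τ d (z + τ) = m τ z • ∑ l ∈ Finset.range (d + 1),
      (((d.choose l : ℂ) * kap ^ (d - l)) • thd τ l z) := by
  simpa [mq_one] using thd_add_nat hτ 1 d z

/-! ### The gluing class -/

lemma Gp_apply (τ z t : ℂ) (i : Fin 6) :
    Gp τ z t i = t ^ 2 * thd τ 0 z i + t * thd τ 1 z i + thd τ 2 z i := by simp [Gp]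

lemma Gi_apply (τ z s : ℂ) (i : Fin 6) :
    Gi τ z s i = thd τ 0 z i + s * thd τ 1 z i + s ^ 2 * thd τ 2 z i := by simp [Gi]

lemma Gp_add_one (τ z t : ℂ) : Gp τ (z + 1) t = Gp τ z t := by simp [Gp, thd_add_one]

lemma Gi_add_one (τ z s : ℂ) : Gi τ (z + 1) s = Gi τ z s := by simp [Gi, thd_add_one]

lemma Gp_eq_Gi (τ z : ℂ) {t : ℂ} (ht : t ≠ 0) : Gp τ z t = (t ^ 2) • Gi τ z t⁻¹ := by
  funext i
  simp only [Gp_apply, Gi_apply, Pi.smul_apply, smul_eq_mul]
  field_simp

lemma Gi_eq_Gp (τ z : ℂ) {s : ℂ} (hs : s ≠ 0) : Gi τ z s = (s ^ 2) • Gp τ z s⁻¹ := by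
  funext i
  simp only [Gp_apply, Gi_apply, Pi.smul_apply, smul_eq_mul]
  field_simp

lemma differentiable_Gp (hτ : 0 < τ.im) : Differentiable ℂ fun p : ℂ × ℂ => Gp τ p.1 p.2 := by
  have := differentiable_thd hτ
  unfold Gp
  fun_prop

lemma differentiable_Gi (hτ : 0 < τ.im) : Differentiable ℂ fun p : ℂ × ℂ => Gi τ p.1 p.2 := by
  have := differentiable_thd hτ
  unfold Gi
  fun_prop

lemma Gp_add_nat (hτ : 0 < τ.im) (q : ℕ) (z t : ℂ) :
    Gp τ (z + q * τ) (t + q * kap) = mq τ q z •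
      ((t ^ 2 + 3 * ((q : ℂ) * kap) * t + 3 * ((q : ℂ) * kap) ^ 2) • thd τ 0 z
        + (t + 3 * ((q : ℂ) * kap)) • thd τ 1 z + thd τ 2 z) := by
  funext i
  simp only [Gp_apply, thd0_add_nat hτ, thd1_add_nat hτ, thd2_add_nat hτ, Pi.smul_apply,
    Pi.add_apply, smul_eq_mul]
  ring

/-! ### The maps between the charts -/

lemma atInfty_add_one (τ z t : ℂ) (x : V) : atInfty τ (z + 1) t x = atInfty τ z t x := by
  simp [atInfty, Gp_add_one]

lemma fromInfty_add_one (τ z s : ℂ) (x : V) : fromInfty τ (z + 1) s x = fromInfty τ z s x := by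
  simp [fromInfty, Gi_add_one]

lemma fromInfty_atInfty (τ z : ℂ) {t : ℂ} (ht : t ≠ 0) (x : V) :
    fromInfty τ z t⁻¹ (atInfty τ z t x) = x := by
  refine Prod.ext ?_ ?_
  · funext i
    simp only [fromInfty, atInfty, Gp_eq_Gi τ z ht, Pi.add_apply, Pi.smul_apply, smul_eq_mul]
    field_simp
    ring
  · simp only [fromInfty, atInfty]
    field_simp

lemma atInfty_fromInfty (τ z : ℂ) {s : ℂ} (hs : s ≠ 0) (x : V) :
    atInfty τ z s⁻¹ (fromInfty τ z s x) = x := by
  refine Prod.ext ?_ ?_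
  · funext i
    simp only [fromInfty, atInfty, Gi_eq_Gp τ z hs, Pi.add_apply, Pi.smul_apply, smul_eq_mul]
    field_simp
    ring
  · simp only [fromInfty, atInfty]
    field_simp

lemma atInfty_fromInfty' (τ z : ℂ) {t : ℂ} (ht : t ≠ 0) (x : V) :
    atInfty τ z t (fromInfty τ z t⁻¹ x) = x := by
  simpa using atInfty_fromInfty τ z (inv_ne_zero ht) x

lemma atInfty_add (τ z t : ℂ) (x y : V) :
    atInfty τ z t (x + y) = atInfty τ z t x + atInfty τ z t y := by
  refine Prod.ext ?_ ?_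
  · funext i; simp [atInfty]; ring
  · simp [atInfty]; ring

lemma atInfty_smul (τ z t c : ℂ) (x : V) : atInfty τ z t (c • x) = c • atInfty τ z t x := by
  refine Prod.ext ?_ ?_
  · funext i; simp [atInfty]; ring
  · simp [atInfty]; ring

lemma atInfty_ne_zero (τ z : ℂ) {t : ℂ} (ht : t ≠ 0) {x : V} (hx : x ≠ 0) :
    atInfty τ z t x ≠ 0 := fun h => hx (by
  rw [← fromInfty_atInfty τ z ht x, h]
  simp [fromInfty])

lemma eP_ne_zero (τ : ℂ) (q : ℕ) (z : ℂ) : eP τ q z ≠ 0 := Complex.exp_ne_zero _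

lemma eP_add_one (τ : ℂ) (q : ℕ) (z : ℂ) : eP τ q (z + 1) = eP τ q z := by
  rw [eP, eP, show -(2 * π * I * (q : ℂ) * τ) - 4 * π * I * (z + 1)
    = (-(2 * π * I * (q : ℂ) * τ) - 4 * π * I * z) + ((-2 : ℤ) : ℂ) * (2 * π * I) by push_cast; ring,
    Complex.exp_add, Complex.exp_int_mul_two_pi_mul_I, mul_one]

lemma differentiable_eP (τ : ℂ) (q : ℕ) : Differentiable ℂ (eP τ q) := by
  unfold eP; fun_prop

lemma desc_add_one (τ : ℂ) (q : ℕ) (z : ℂ) (x : V) : desc τ q (z + 1) x = desc τ q z x := by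
  simp [desc, eP_add_one, mq_add_one]

lemma descI_add_one (τ : ℂ) (q : ℕ) (z s : ℂ) (x : V) :
    descI τ q (z + 1) s x = descI τ q z s x := by
  simp [descI, eP_add_one, mq_add_one, thd_add_one]

lemma desc_smul (τ : ℂ) (q : ℕ) (z c : ℂ) (x : V) : desc τ q z (c • x) = c • desc τ q z x := by
  refine Prod.ext ?_ ?_
  · funext i; simp [desc]; ring
  · simp [desc]; ring

lemma desc_add (τ : ℂ) (q : ℕ) (z : ℂ) (x y : V) :
    desc τ q z (x + y) = desc τ q z x + desc τ q z y := by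
  refine Prod.ext ?_ ?_
  · funext i; simp [desc, mul_add]
  · simp [desc]; ring

lemma descI_smul (τ : ℂ) (q : ℕ) (z s c : ℂ) (x : V) :
    descI τ q z s (c • x) = c • descI τ q z s x := by
  refine Prod.ext ?_ ?_
  · funext i; simp [descI]; ring
  · simp [descI]; ring

lemma descI_add (τ : ℂ) (q : ℕ) (z s : ℂ) (x y : V) :
    descI τ q z s (x + y) = descI τ q z s x + descI τ q z s y := by
  refine Prod.ext ?_ ?_
  · funext i; simp [descI]; ring
  · simp [descI]; ring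

lemma desc_ne_zero (τ : ℂ) (q : ℕ) (z : ℂ) {x : V} (hx : x ≠ 0) : desc τ q z x ≠ 0 := fun h => hx (by
  simp only [desc, Prod.mk_eq_zero, smul_eq_zero, mul_eq_zero, inv_eq_zero, eP_ne_zero, mq_ne_zero,
    or_self, false_or] at h
  exact Prod.ext h.1 h.2)

lemma descI_ne_zero (τ : ℂ) (q : ℕ) (z : ℂ) {s : ℂ} (h1 : 1 + (q : ℂ) * kap * s ≠ 0) {x : V}
    (hx : x ≠ 0) : descI τ q z s x ≠ 0 := fun h => hx (by
  simp only [descI, Prod.mk_eq_zero, smul_eq_zero, mul_eq_zero, inv_eq_zero, div_eq_zero_iff,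
    eP_ne_zero, mq_ne_zero, pow_eq_zero_iff two_ne_zero, h1, or_self, or_false, false_or] at h
  refine Prod.ext ?_ h.2
  simpa [h.2, h1] using h.1)

/-- The descent in the chart at infinity is the conjugate of the descent in the chart `t`. -/
lemma descI_atInfty (hτ : 0 < τ.im) (q : ℕ) (z : ℂ) {t : ℂ} (ht : t ≠ 0)
    (ht' : t + q * kap ≠ 0) (x : V) :
    descI τ q z t⁻¹ (atInfty τ z t x) = atInfty τ (z + q * τ) (t + q * kap) (desc τ q z x) := by
  have := eP_ne_zero τ q z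
  have := mq_ne_zero τ q z
  have h1 : 1 + (q : ℂ) * kap * t⁻¹ = (t + q * kap) / t := by field_simp
  refine Prod.ext ?_ ?_
  · funext i
    simp only [descI, atInfty, desc, Gp_add_nat hτ, Gp_apply, h1, Pi.add_apply, Pi.smul_apply,
      smul_eq_mul]
    field_simp
    ring
  · simp only [descI, atInfty, desc, h1]
    field_simp

/-- `descI` is `atInfty ∘ desc ∘ fromInfty`. -/
lemma descI_eq (hτ : 0 < τ.im) (q : ℕ) (z : ℂ) {s : ℂ} (hs : s ≠ 0)
    (h1 : 1 + (q : ℂ) * kap * s ≠ 0) (x : V) :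
    descI τ q z s x =
      atInfty τ (z + q * τ) (s⁻¹ + q * kap) (desc τ q z (fromInfty τ z s x)) := by
  have ht : s⁻¹ + q * kap ≠ 0 := by
    rw [show s⁻¹ + q * kap = (1 + (q : ℂ) * kap * s) / s by field_simp]
    exact div_ne_zero h1 hs
  rw [← descI_atInfty hτ q z (inv_ne_zero hs) ht, inv_inv, atInfty_fromInfty τ z hs]

/-- The parameter at infinity after one step. -/
lemma inv_add_period (q : ℕ) {t : ℂ} (ht : t ≠ 0) :
    t⁻¹ / (1 + q * kap * t⁻¹) = (t + q * kap)⁻¹ := by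
  rw [show 1 + (q : ℂ) * kap * t⁻¹ = (t + q * kap) / t by field_simp]
  field_simp

/-! ### The weight -/

lemma norm_eP (τ : ℂ) (q : ℕ) (z : ℂ) :
    ‖eP τ q z‖ = Real.exp (2 * π * q * τ.im + 4 * π * z.im) := by
  rw [eP, Complex.norm_exp]
  congr 1
  simp


lemma wt_pos (τ : ℂ) (q : ℕ) (z : ℂ) : 0 < wt τ q z := Real.exp_pos _

lemma wt_add_one (τ : ℂ) (q : ℕ) (z : ℂ) : wt τ q (z + 1) = wt τ q z := by simp [wt]

lemma wt_rule (hτ : 0 < τ.im) {q : ℕ} (hq : 0 < q) (z : ℂ) :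
    wt τ q (z + q * τ) * ‖eP τ q z‖ ^ 2 = wt τ q z := by
  have hq' : (0 : ℝ) < q := by exact_mod_cast hq
  have hT := hτ.ne'
  rw [norm_eP, wt, wt, ← Real.exp_nat_mul, ← Real.exp_add]
  congr 1
  simp
  field_simp
  ring

lemma contDiff_wt (τ : ℂ) (q : ℕ) {k : ℕ∞ω} : ContDiff ℝ k (wt τ q) := by
  have h : ContDiff ℝ k fun z : ℂ => z.im := Complex.imCLM.contDiff
  unfold wt
  exact (((contDiff_const.mul (h.pow 2)).div_const _).neg).exp

/-! ### Independence -/

lemma linearIndependent_th (hτ : 0 < τ.im) : LinearIndependent ℂ (th τ) :=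
  Theta.linearIndependent_series hτ (by norm_num)

/-- No nonzero combination of the theta functions vanishes. -/
lemma th_independent (hτ : 0 < τ.im) {c : Fin 6 → ℂ} (h : ∀ z, ∑ i, c i * th τ i z = 0) : c = 0 :=
  funext fun i => Fintype.linearIndependent_iff.1 (linearIndependent_th hτ) c
    (funext fun z => by simpa [Finset.sum_apply] using h z) i

/-- Every section of degree six is a combination of the theta functions. -/
lemma exists_th_coords (hτ : 0 < τ.im) {f : ℂ → ℂ}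
    (hf : f ∈ Theta.sections τ 6 (Theta.seriesFactor τ 6)) :
    ∃ r : Fin 6 → ℂ, f = fun z => ∑ i, r i * th τ i z := by
  obtain ⟨r, hr⟩ := Theta.exists_series_coords hτ (by norm_num : 0 < 6) hf
  refine ⟨r, funext fun z => ?_⟩
  rw [hr, Finset.sum_apply]
  rfl

/-- Prescribed values of five consecutive jets. -/
lemma exists_thd_dual (hτ : 0 < τ.im) (z : ℂ) (v : ℕ → ℂ) :
    ∃ r : Fin 6 → ℂ, ∀ d < 5, ∑ i, r i * thd τ d z i = v d := by
  obtain ⟨f, hf, hfv⟩ := Theta.exists_jet hτ (Theta.seriesFactor_ne_zero (τ := τ) (n := 6)) z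
    (n := 6) (k := 5) (by norm_num) v
  obtain ⟨r, rfl⟩ := exists_th_coords hτ hf
  refine ⟨r, fun d hd => ?_⟩
  rw [← hfv d hd, iteratedDeriv_fun_sum fun i _ => (contDiff_const.mul (contDiff_th hτ i)).contDiffAt]
  exact Finset.sum_congr rfl fun i _ => (iteratedDeriv_const_mul_field _ _).symm

/-- The first five jet vectors are linearly independent at every point. -/
lemma thd_independent (hτ : 0 < τ.im) (z : ℂ) {x : Fin 5 → ℂ}
    (h : ∑ d : Fin 5, x d • thd τ (d : ℕ) z = 0) : x = 0 := by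
  funext e
  obtain ⟨r, hr⟩ := exists_thd_dual hτ z fun d => if d = (e : ℕ) then 1 else 0
  have h2 : ∑ i, r i * (∑ d : Fin 5, x d • thd τ (d : ℕ) z) i = x e := by
    simp only [Finset.sum_apply, Pi.smul_apply, smul_eq_mul, Finset.mul_sum]
    rw [Finset.sum_comm]
    calc ∑ d : Fin 5, ∑ i, r i * (x d * thd τ (d : ℕ) z i)
        = ∑ d : Fin 5, x d * ∑ i, r i * thd τ (d : ℕ) z i :=
          Finset.sum_congr rfl fun d _ => by rw [Finset.mul_sum]; exact Finset.sum_congr rfl fun i _ => by ring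
      _ = ∑ d : Fin 5, x d * if (d : ℕ) = (e : ℕ) then 1 else 0 :=
          Finset.sum_congr rfl fun d _ => by rw [hr _ d.isLt]
      _ = x e := by simp [Fin.val_inj]
  rw [h] at h2
  simpa using h2.symm

lemma Gp_ne_zero (hτ : 0 < τ.im) (z t : ℂ) : Gp τ z t ≠ 0 := fun h => by
  have := congrFun (thd_independent hτ z (x := ![t ^ 2, t, 1, 0, 0]) ?_) 2
  · simp at this
  · rw [← h, Gp, Fin.sum_univ_five]
    simp

end Vale.Agent.P296.Model
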