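import Vale.Agent.P296.Model.Bundle
import Vale.Agent.P296.Model.Lemmas

/-!
# P296: the data of the counterexample

The surface of the frozen interface is `Surf (modelData T q)`: period `q τ` the six
theta series, their factor `exp (q κ z + β)` along `qτ`, and the twist `eP`.
-/

noncomputable section

namespace Vale.Agent.P296.Model

open Complex
open scoped Real

variable (τ : ℂ)

/-- The constant term of the logarithm of `mq`. -/
def betaQ (q : ℕ) : ℂ := -(6 * π * I * τ * q ^ 2)

lemma m_eq_exp (z : ℂ) : m τ z = exp (kap * z - 6 * π * I * τ) := by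
  rw [m, Theta.mult, Theta.seriesFactor, ← Complex.exp_add]
  congr 1
  rw [kap]
  push_cast
  ring

lemma mq_eq_exp (q : ℕ) (z : ℂ) : mq τ q z = exp ((q : ℂ) * kap * z + betaQ τ q) := by
  induction q with
  | zero => simp [mq, betaQ]
  | succ q ih =>
    rw [mq_succ, ih, m_eq_exp, ← Complex.exp_add]
    congr 1
    rw [betaQ, betaQ, kap]
    push_cast
    ring

lemma eP_eq_exp (q : ℕ) (z : ℂ) :
    eP τ q z = exp (-(4 * π * I) * z + -(2 * π * I * q * τ)) := by
  rw [eP]; congr 1; ring

/-- The data of the counterexample: the period is `qτ`, the isogeny has degree `q`. -/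
def modelData (hτ : 0 < τ.im) (q : ℕ) (hq : 0 < q) : ModelData where
  τ := (q : ℂ) * τ
  hτ := by simpa using And.intro hq.ne' hτ.ne'
  α := (q : ℂ) * kap
  β := betaQ τ q
  γ := -(4 * π * I)
  δ := -(2 * π * I * q * τ)
  hα := by
    rw [show (q : ℂ) * kap = ((-(6 * q : ℕ) : ℤ) : ℂ) * (2 * π * I) by rw [kap]; push_cast; ring]
    exact Complex.exp_int_mul_two_pi_mul_I _
  hγ := by
    rw [show -(4 * π * I) = ((-2 : ℤ) : ℂ) * (2 * π * I) by push_cast; ring]
    exact Complex.exp_int_mul_two_pi_mul_I _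
  θ := th τ
  hθ i := Theta.differentiable_series hτ (by norm_num) _
  per := th_add_one τ
  quasi i z := by rw [th_add_nat, mq_eq_exp]

variable {τ} {q : ℕ} {hτ : 0 < τ.im} {hq : 0 < q}

@[simp] lemma modelData_tau : (modelData τ hτ q hq).τ = (q : ℂ) * τ := rfl

@[simp] lemma modelData_alpha : (modelData τ hτ q hq).α = (q : ℂ) * kap := rfl

lemma mult_one_factor (z : ℂ) :
    mult (modelData τ hτ q hq).τ (modelData τ hτ q hq).α (modelData τ hτ q hq).β 1 z =
      mq τ q z := by
  simp [mult, mq_eq_exp, modelData]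

lemma mult_one_twist (z : ℂ) :
    mult (modelData τ hτ q hq).τ (modelData τ hτ q hq).γ (modelData τ hτ q hq).δ 1 z =
      eP τ q z := by
  simp [mult, eP_eq_exp, modelData]

lemma theta_eq_thd (z : ℂ) :
    (fun i => (modelData τ hτ q hq).θ i z) = thd τ 0 z ∧
    (fun i => (modelData τ hτ q hq).θ₁ i z) = thd τ 1 z ∧
    (fun i => (modelData τ hτ q hq).θ₂ i z) = thd τ 2 z := by
  refine ⟨?_, ?_, ?_⟩ <;> funext i
  · simp [thd, modelData]
  · simp [thd, modelData, ModelData.θ₁, iteratedDeriv_one]
  · simp [thd, modelData, ModelData.θ₁, ModelData.θ₂, iteratedDeriv_succ]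

end Vale.Agent.P296.Model
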