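import Vale.Agent.P296.Theta.Series
import Vale.Agent.P296.Theta.Vanish

/-!
# P296: the explicit counterexample, upstairs on `ℂ × ℙ¹` (frozen interface)

The ruled surface `X_q` is the quotient of `ℂ × ℙ¹` by `(z, t) ↦ (z + 1, t)` and
`(z, t) ↦ (z + qτ, t + qκ)`; fibre charts `t` and `s = t⁻¹`.  `V` holds the fibre coordinates
`(φ, a)` of the dual bundle in the chart `t`; in the chart `s` they are
`(ψ, b) = atInfty z t (φ, a) = (t² φ + a (t θ + θ' + θ''/t), - a / t²)`.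
The parameter `τ` has `0 < τ.im`; `q` is the degree of the isogeny.
-/

noncomputable section
namespace Vale.Agent.P296.Model
open Complex

variable (τ : ℂ)

/-- `θ_i`: basis of the sections of degree 6. -/
def th (i : Fin 6) (z : ℂ) : ℂ := Theta.series τ 6 ((i : ℕ) : ℤ) z

/-- The `d`-th derivative vector `θ^(d)(z) ∈ ℂ⁶`. -/
def thd (d : ℕ) (z : ℂ) : Fin 6 → ℂ := fun i => iteratedDeriv d (th τ i) z

/-- Multiplier: `th τ i (z + τ) = m τ z * th τ i z`. -/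
def m (z : ℂ) : ℂ := Theta.mult 6 (Theta.seriesFactor τ 6) z

/-- Logarithmic derivative of `m`: `θ'(z + τ) = m z * (θ' z + kap • θ z)`. -/
def kap : ℂ := -(12 * Real.pi * I)

/-- The gluing class in the chart `t`: `t² θ + t θ' + θ''`. -/
def Gp (z t : ℂ) : Fin 6 → ℂ := (t ^ 2) • thd τ 0 z + t • thd τ 1 z + thd τ 2 z

/-- The same in the chart `s = t⁻¹`: `Gp z t = t² • Gi z t⁻¹`. -/
def Gi (z s : ℂ) : Fin 6 → ℂ := thd τ 0 z + s • thd τ 1 z + (s ^ 2) • thd τ 2 z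

/-- Fibre coordinates `(φ, a)` of the dual bundle. -/
abbrev V := (Fin 6 → ℂ) × ℂ

/-- From the chart `t` to the chart `s = t⁻¹` (`t ≠ 0`). -/
def atInfty (z t : ℂ) (x : V) : V :=
  ((t ^ 2) • x.1 + (x.2 / t) • Gp τ z t, -x.2 / t ^ 2)

/-- From the chart `s` back to the chart `t = s⁻¹` (`s ≠ 0`). -/
def fromInfty (z s : ℂ) (x : V) : V :=
  ((s ^ 2) • x.1 + (x.2 / s) • Gi τ z s, -x.2 / s ^ 2)

/-- Multiplier of `N` along `z ↦ z + qτ`. -/
def mq (q : ℕ) (z : ℂ) : ℂ := ∏ j ∈ Finset.range q, m τ (z + (j : ℂ) * τ)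

/-- Multiplier of the degree two twist on `ℂ / (ℤ + qτ ℤ)`. -/
def eP (q : ℕ) (z : ℂ) : ℂ := exp (-(2 * Real.pi * I * (q : ℂ) * τ) - 4 * Real.pi * I * z)

/-- Dual bundle descent along `(z, t) ↦ (z + qτ, t + q kap)` in the chart `t`. -/
def desc (q : ℕ) (z : ℂ) (x : V) : V :=
  ((eP τ q z)⁻¹ • x.1, (eP τ q z * mq τ q z)⁻¹ * x.2)

/-- The same descent in the chart `s`, along `(z, s) ↦ (z + qτ, s / (1 + q kap s))`, holomorphic
where `1 + q kap s ≠ 0` (it is `atInfty ∘ desc ∘ fromInfty` for `s ≠ 0`). -/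
def descI (q : ℕ) (z s : ℂ) (x : V) : V :=
  let k : ℂ := (q : ℂ) * kap
  ((eP τ q z)⁻¹ • ((1 + k * s) ^ 2 • x.1 + (x.2 / (1 + k * s)) •
      ((k ^ 3) • thd τ 0 z + (3 * k ^ 2 + k ^ 3 * s) • thd τ 1 z +
        (3 * k + 3 * k ^ 2 * s + k ^ 3 * s ^ 2) • thd τ 2 z)),
    (eP τ q z * mq τ q z)⁻¹ * (x.2 / (1 + k * s) ^ 2))

/-- The weight making a metric invariant: `wt (z + qτ) * ‖eP q z‖² = wt z`. -/
def wt (q : ℕ) (z : ℂ) : ℝ := Real.exp (-(4 * Real.pi * z.im ^ 2 / (q * τ.im)))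

end Vale.Agent.P296.Model
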