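import Vale.Agent.P296.Model.Bundle

/-!
# The covering of the ruled surface by two copies of `ℂ²` and the frames of the dual bundle on it

`pi false (z, t)` and `pi true (z, s)` are the projections from the two copies; over them the dual bundle
has global coordinates `(φ, a)`, and `frame i b (z, u)` passes to the coordinates of the chart `i`.
-/

noncomputable section

namespace Vale.Agent.P296.Surf

open scoped Manifold ContDiff Topology Matrix
open Filter

variable {D : ModelData}

/-- The fibre point over the finite coordinate, at real height `r`. -/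
def fibPt (D : ModelData) (r : ℝ) : Bool → ℂ → OnePoint ℂ
  | false => fun t => ((t - r * D.α : ℂ) : OnePoint ℂ)
  | true => fun s => if s = 0 then OnePoint.infty else ((s⁻¹ - r * D.α : ℂ) : OnePoint ℂ)

/-- The projection of the cover. -/
def pi (D : ModelData) (b : Bool) (w : ℂ × ℂ) : Surf D :=
  ((coA D w.1 : UnitAddCircle), (coB D w.1 : UnitAddCircle), fibPt D (coB D w.1) b w.2)

lemma fibPt_true {r : ℝ} {s : ℂ} (h : 1 - (r : ℂ) * D.α * s ≠ 0) :
    fibPt D r true s = fibInf (s / (1 - (r : ℂ) * D.α * s)) := by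
  rcases eq_or_ne s 0 with rfl | hs
  · simp [fibPt, fibInf]
  · simp only [fibPt, hs, if_false]
    change (((s⁻¹ - r * D.α : ℂ)) : OnePoint ℂ) = if _ then _ else _
    rw [if_neg (div_ne_zero hs h), inv_div]
    congr 1
    field_simp

lemma continuous_pi (b : Bool) : Continuous (pi D b) := by
  have hc : Continuous fun w : ℂ × ℂ => (coB D w.1 : ℂ) :=
    Complex.continuous_ofReal.comp (continuous_coB.comp continuous_fst)
  refine Continuous.prodMk ((AddCircle.continuous_mk' 1).comp (continuous_coA.comp continuous_fst))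
    (Continuous.prodMk ((AddCircle.continuous_mk' 1).comp (continuous_coB.comp continuous_fst)) ?_)
  cases b
  · exact OnePoint.continuous_coe.comp (by fun_prop)
  · refine continuous_iff_continuousAt.2 fun w => ?_
    rcases eq_or_ne w.2 0 with h | h
    · have hd : 1 - (coB D w.1 : ℂ) * D.α * w.2 ≠ 0 := by simp [h]
      have hf : Continuous fibInf := continuousOn_univ.1 fibInf.continuousOn
      have h1 : ContinuousAt (fun v : ℂ × ℂ => fibInf (v.2 / (1 - (coB D v.1 : ℂ) * D.α * v.2))) w :=
        hf.continuousAt.comp (continuous_snd.continuousAt.div (by fun_prop) hd)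
      refine h1.congr ?_
      filter_upwards [(isOpen_ne_fun (continuous_const.sub ((hc.mul continuous_const).mul continuous_snd))
        continuous_const).mem_nhds hd] with v hv
      exact (fibPt_true hv).symm
    · have h1 : ContinuousAt (fun v : ℂ × ℂ => ((v.2⁻¹ - coB D v.1 * D.α : ℂ) : OnePoint ℂ)) w :=
        OnePoint.continuous_coe.continuousAt.comp
          ((continuous_snd.continuousAt.inv₀ h).sub (hc.mul continuous_const).continuousAt)
      refine h1.congr ?_
      filter_upwards [(isOpen_ne_fun continuous_snd continuous_const).mem_nhds h] with v hv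
      simp only [fibPt]
      rw [if_neg hv]

lemma coA_add (z : ℂ) (m k : ℤ) : coA D (z + m + k * D.τ) = coA D z + m := by
  have : D.τ.im ≠ 0 := D.hτ
  simp [coA]
  field_simp
  ring

lemma coB_add (z : ℂ) (m k : ℤ) : coB D (z + m + k * D.τ) = coB D z + k := by
  have : D.τ.im ≠ 0 := D.hτ
  simp [coB]
  field_simp

lemma coe_add_int (r : ℝ) (n : ℤ) : ((r + n : ℝ) : UnitAddCircle) = r := by simp

/-- Moving a point of the cover by a translation does not move its image. -/
lemma pi_deck (k m : ℤ) {a b : Bool} {z u : ℂ} (h : stepOK (k * D.α) a b u) :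
    pi D b (z + m + k * D.τ, step (k * D.α) a b u) = pi D a (z, u) := by
  refine Prod.ext ?_ (Prod.ext ?_ ?_)
  · simp only [pi, coA_add, coe_add_int]
  · simp only [pi, coB_add, coe_add_int]
  · simp only [pi, coB_add,]
    cases a <;> cases b <;> simp only [fibPt, step, stepOK, Complex.ofReal_add,
      Complex.ofReal_intCast] at h ⊢
    · congr 1; ring
    · rw [if_neg (inv_ne_zero h), inv_inv]; congr 1; ring
    · rw [if_neg h]; congr 1; field_simp; ring
    · rcases eq_or_ne u 0 with rfl | hu
      · simp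
      · rw [if_neg hu, if_neg (div_ne_zero hu h)]; congr 1; field_simp; ring

lemma pi_glue {z t : ℂ} (ht : t ≠ 0) : pi D true (z, t⁻¹) = pi D false (z, t) := by
  simpa [step] using pi_deck (D := D) 0 0 (a := false) (b := true) (z := z) (u := t) (by simpa [stepOK])

lemma pi_per (b : Bool) (z u : ℂ) : pi D b (z + 1, u) = pi D b (z, u) := by
  cases b
  · simpa [step] using pi_deck (D := D) 0 1 (a := false) (b := false) (z := z) (u := u) trivial
  · simpa [step] using
      pi_deck (D := D) 0 1 (a := true) (b := true) (z := z) (u := u) (by simp [stepOK])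

lemma pi_tau (b : Bool) {z u : ℂ} (h : stepOK D.α b b u) :
    pi D b (z + D.τ, step D.α b b u) = pi D b (z, u) := by
  simpa using pi_deck (D := D) 1 0 (z := z) (u := u) (a := b) (b := b) (by simpa using h)

lemma pi_chart {i : Idx} {x : Surf D} (hx : x ∈ (chart i).source) :
    pi D i.2.2 (chart i x 0, chart i x 1) = x := by
  obtain ⟨h1, h2, -⟩ := mem_lifts hx
  refine Prod.ext ?_ (Prod.ext ?_ ?_)
  · simp only [pi, chart_zero, coA_zOf]
    exact (liftR i.1).right_inv h1
  · simp only [pi, chart_zero, coB_zOf]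
    exact (liftR i.2.1).right_inv h2
  · simp only [pi, chart_zero, coB_zOf]
    obtain ⟨c, d, ki⟩ := i
    induction hp : x.2.2 using OnePoint.rec with
    | infty =>
      obtain rfl : ki = true := kind_of_infty hp hx
      simp [fibPt, chart_one_infty hp]
    | coe p =>
      cases ki
      · simp [fibPt, chart_one_false hp, tOf]
      · obtain ⟨hne, he⟩ := chart_one_true hp hx
        simp only [fibPt, he, inv_eq_zero, hne, if_false, inv_inv]
        simp [tOf]

lemma eq_of_coe_eq {r r' : ℝ} (h : (r : UnitAddCircle) = r') :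
    ((round (r' - r) : ℤ) : ℝ) = r' - r := by
  obtain ⟨n, hn⟩ := AddSubgroup.mem_zmultiples_iff.1
    ((QuotientAddGroup.eq_iff_sub_mem).1 h.symm)
  simp only [zsmul_eq_mul, mul_one] at hn
  rw [← hn, round_intCast]

/-- Two points of the cover have the same image only if they differ by a translation. -/
lemma pi_eq {a b : Bool} {w w' : ℂ × ℂ} (h : pi D a w = pi D b w') :
    w'.1 = w.1 + round (coA D w'.1 - coA D w.1) + round (coB D w'.1 - coB D w.1) * D.τ ∧
      stepOK (round (coB D w'.1 - coB D w.1) * D.α) a b w.2 ∧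
      w'.2 = step (round (coB D w'.1 - coB D w.1) * D.α) a b w.2 := by
  obtain ⟨z, u⟩ := w
  obtain ⟨z', u'⟩ := w'
  have hA := eq_of_coe_eq (congrArg Prod.fst h)
  have hB := eq_of_coe_eq (congrArg (fun p : Surf D => p.2.1) h)
  have hf : fibPt D (coB D z) a u = fibPt D (coB D z') b u' :=
    congrArg (fun p : Surf D => p.2.2) h
  dsimp only at hA hB ⊢
  generalize round (coA D z' - coA D z) = m at hA ⊢
  generalize round (coB D z' - coB D z) = k at hB ⊢
  have hk : coB D z' = coB D z + k := by linarith
  have hm : coA D z' = coA D z + m := by linarith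
  have hz : z' = z + m + k * D.τ := by
    rw [← zOf_coords (D := D) z', hk, hm]
    conv_rhs => rw [← zOf_coords (D := D) z]
    simp only [zOf]; push_cast; ring
  refine ⟨hz, ?_⟩
  rw [hk] at hf
  cases a <;> cases b <;>
    simp only [fibPt, step, stepOK, Complex.ofReal_add, Complex.ofReal_intCast, true_and] at hf ⊢
  · have := OnePoint.coe_injective hf
    linear_combination -this
  · split_ifs at hf with hu'
    · exact absurd hf (OnePoint.coe_ne_infty _)
    have := OnePoint.coe_injective hf
    have e : u'⁻¹ = u + k * D.α := by linear_combination -this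
    exact ⟨e ▸ inv_ne_zero hu', by rw [← e, inv_inv]⟩
  · split_ifs at hf with hu
    · exact absurd hf.symm (OnePoint.coe_ne_infty _)
    have := OnePoint.coe_injective hf
    refine ⟨hu, ?_⟩
    rw [eq_div_iff hu]
    linear_combination -u * this + mul_inv_cancel₀ hu
  · split_ifs at hf with hu hu' hu'
    · simp [hu, hu']
    · exact absurd hf.symm (OnePoint.coe_ne_infty _)
    · exact absurd hf (OnePoint.coe_ne_infty _)
    have := OnePoint.coe_injective hf
    have e : u'⁻¹ = (1 + k * D.α * u) / u := by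
      rw [eq_div_iff hu]
      linear_combination -u * this + mul_inv_cancel₀ hu
    have e' : (1 + k * D.α * u) / u ≠ 0 := e ▸ inv_ne_zero hu'
    exact ⟨(div_ne_zero_iff.1 e').1, by rw [← inv_inv u', e, inv_div]⟩

/-- The number of vertical translations from a point of the cover to a chart. -/
def upK (D : ModelData) (i : Idx) (b : Bool) (w : ℂ × ℂ) : ℤ :=
  round (lb i (pi D b w) - coB D w.1)

/-- The number of horizontal translations from a point of the cover to a chart. -/
def upM (D : ModelData) (i : Idx) (b : Bool) (w : ℂ × ℂ) : ℤ :=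
  round (la i (pi D b w) - coA D w.1)

variable {i j : Idx} {b : Bool} {w : ℂ × ℂ}

/-- The chart in terms of the coordinates of the cover. -/
lemma chart_pi (hi : pi D b w ∈ (chart i).source) :
    chart i (pi D b w) = !₂[w.1 + upM D i b w + upK D i b w * D.τ,
        step (upK D i b w * D.α) b i.2.2 w.2]
      ∧ stepOK (upK D i b w * D.α) b i.2.2 w.2 := by
  obtain ⟨h1, h2, h3⟩ := pi_eq (pi_chart hi).symm
  simp only [chart_zero, coA_zOf, coB_zOf] at h1 h2 h3
  refine ⟨?_, h2⟩
  ext n
  fin_cases n
  · simpa [chart_zero, upM, upK] using h1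
  · simpa [upK] using h3

lemma upK_add (hi : pi D b w ∈ (chart i).source) (hj : pi D b w ∈ (chart j).source) :
    upK D j b w = upK D i b w + kk i j (pi D b w) := by
  rw [upK, upK, lb_eq hi hj, add_sub_right_comm, round_add_intCast]

lemma upK_deck (k m : ℤ) {a : Bool} {z u : ℂ} (h : stepOK (k * D.α) a b u) :
    upK D i b (z + m + k * D.τ, step (k * D.α) a b u) = upK D i a (z, u) - k := by
  rw [upK, upK, pi_deck k m h, coB_add, ← sub_sub, round_sub_intCast]

lemma eventually_up (hi : pi D b w ∈ (chart i).source) :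
    ∀ᶠ v in 𝓝 w, pi D b v ∈ (chart i).source ∧ upK D i b v = upK D i b w ∧
      upM D i b v = upM D i b w := by
  have hn : ∀ᶠ v in 𝓝 w, pi D b v ∈ (chart i).source :=
    (continuous_pi b).continuousAt.eventually ((chart i).open_source.mem_nhds hi)
  have hexact : ∀ v, pi D b v ∈ (chart i).source →
      ((upK D i b v : ℤ) : ℝ) = lb i (pi D b v) - coB D v.1 ∧
      ((upM D i b v : ℤ) : ℝ) = la i (pi D b v) - coA D v.1 := fun v hv =>
    ⟨eq_of_coe_eq ((liftR i.2.1).right_inv (mem_lifts hv).2.1).symm,
      eq_of_coe_eq ((liftR i.1).right_inv (mem_lifts hv).1).symm⟩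
  have hb : ContinuousAt (fun v => lb i (pi D b v) - coB D v.1) w :=
    (((continuousOn_lb i).continuousAt ((chart i).open_source.mem_nhds hi)).comp
      (continuous_pi b).continuousAt).sub (continuous_coB.comp continuous_fst).continuousAt
  have ha : ContinuousAt (fun v => la i (pi D b v) - coA D v.1) w :=
    (((continuousOn_la i).continuousAt ((chart i).open_source.mem_nhds hi)).comp
      (continuous_pi b).continuousAt).sub (continuous_coA.comp continuous_fst).continuousAt
  filter_upwards [hn, hb.eventually (Metric.ball_mem_nhds _ one_pos),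
    ha.eventually (Metric.ball_mem_nhds _ one_pos)] with v hv h1 h2
  rw [Real.dist_eq, ← (hexact v hv).1, ← (hexact w hi).1] at h1
  rw [Real.dist_eq, ← (hexact v hv).2, ← (hexact w hi).2] at h2
  exact ⟨hv, sub_eq_zero.1 (Int.abs_lt_one_iff.1 (by exact_mod_cast h1)),
    sub_eq_zero.1 (Int.abs_lt_one_iff.1 (by exact_mod_cast h2))⟩

lemma contDiffAt_chart_pi (hi : pi D b w ∈ (chart i).source) :
    ContDiffAt ℂ ω (fun v => chart i (pi D b v)) w := by
  refine ContDiffAt.congr_of_eventuallyEq (f := fun v =>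
    !₂[v.1 + upM D i b w + upK D i b w * D.τ,
      step (upK D i b w * D.α) b i.2.2 v.2]) ?_ ?_
  · rw [contDiffAt_euclidean]
    intro n
    fin_cases n
    · simp only [Fin.zero_eta, Matrix.cons_val_zero]; fun_prop
    · simp only [Fin.mk_one, Matrix.cons_val_one, Matrix.cons_val_fin_one]
      exact (contDiffAt_step (chart_pi hi).2).comp w (by fun_prop)
  · filter_upwards [eventually_up hi] with v hv
    rw [(chart_pi hv.1).1, hv.2.1, hv.2.2]

/-- The projection is holomorphic. -/
lemma contMDiff_pi (b : Bool) : ContMDiff 𝓘(ℂ, ℂ × ℂ) 𝓘(ℂ, Cn 2) ω (pi D b) := fun w => by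
  refine contMDiffAt_iff.2 ⟨(continuous_pi b).continuousAt, ?_⟩
  simp only [extChartAt, OpenPartialHomeomorph.extend, modelWithCornersSelf_coe, chartAt_eq]
  simpa [chartAt_self_eq, Function.comp_def] using (contDiffAt_chart_pi (i := idxAt (pi D b w)) (mem_idxAt _)).contDiffWithinAt

/-- Coordinates `(φ, a)` as rows of length seven. -/
def toFin : ((Fin 6 → ℂ) × ℂ) ≃ₗ[ℂ] (Fin 7 → ℂ) where
  toFun η := Fin.snoc η.1 η.2
  invFun v := (fun n => v n.castSucc, v (Fin.last 6))
  map_add' η ξ := by ext n; induction n using Fin.lastCases <;> simp [-Fin.reduceLast]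
  map_smul' c η := by ext n; induction n using Fin.lastCases <;> simp [-Fin.reduceLast]
  left_inv η := by simp [-Fin.reduceLast]
  right_inv v := by ext n; induction n using Fin.lastCases <;> simp [-Fin.reduceLast]

/-- The change of dual coordinates between two charts. -/
lemma vecMul_g (a c : Idx) (x : Surf D) (η : (Fin 6 → ℂ) × ℂ) :
    toFin η ᵥ* (bundle D).g a c x
      = toFin (D.change (kk c a x) c.2.2 a.2.2 (chart c x 0) (chart c x 1) η) := by
  ext n
  induction n using Fin.lastCases with
  | last =>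
    rw [vecMul_g_last]
    simp [toFin, ModelData.change, df, -Fin.reduceLast]
  | cast n =>
    rw [vecMul_g_castSucc]
    simp [toFin, ModelData.change, cf, vf, -Fin.reduceLast]

/-- The dual coordinates in the chart `i` of the point `η` over `w`. -/
def frame (D : ModelData) (i : Idx) (b : Bool) (w : ℂ × ℂ) (η : (Fin 6 → ℂ) × ℂ) : Fin 7 → ℂ :=
  toFin (D.change (upK D i b w) b i.2.2 w.1 w.2 η)

lemma change_add (k : ℤ) (a c : Bool) (z u : ℂ) (η ξ : (Fin 6 → ℂ) × ℂ) :
    D.change k a c z u (η + ξ) = D.change k a c z u η + D.change k a c z u ξ := by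
  simp only [ModelData.change, Prod.fst_add, Prod.snd_add, smul_add, add_smul, mul_add,
    Prod.mk_add_mk]
  congr 1
  abel

lemma change_smul (k : ℤ) (a c : Bool) (z u r : ℂ) (η : (Fin 6 → ℂ) × ℂ) :
    D.change k a c z u (r • η) = r • D.change k a c z u η := by
  simp only [ModelData.change, Prod.smul_fst, Prod.smul_snd, Prod.smul_mk, smul_add, smul_smul,
    smul_eq_mul]
  congr 1
  · rw [mul_comm]
  · ring

lemma frame_add (η ξ : (Fin 6 → ℂ) × ℂ) :
    frame D i b w (η + ξ) = frame D i b w η + frame D i b w ξ := by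
  simp only [frame, change_add, map_add]

lemma frame_smul (r : ℂ) (η : (Fin 6 → ℂ) × ℂ) :
    frame D i b w (r • η) = r • frame D i b w η := by
  simp only [frame, change_smul, map_smul]

lemma change_eq_zero {k : ℤ} {a c : Bool} {z u : ℂ} (h : stepOK (k * D.α) a c u)
    {η : (Fin 6 → ℂ) × ℂ} (hη : D.change k a c z u η = 0) : η = 0 := by
  have hc : D.coefC k a c z u ≠ 0 :=
    mul_ne_zero (inv_ne_zero (mult_ne _ _ _ _ _)) (pow_ne_zero _ (tl_ne h))
  have hd : D.coefD k a c z u ≠ 0 := by
    refine mul_ne_zero (mul_ne_zero (inv_ne_zero (mult_ne _ _ _ _ _)) ?_)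
      (inv_ne_zero (mult_ne _ _ _ _ _))
    rw [td_eq]
    exact mul_ne_zero (by split_ifs <;> norm_num) (inv_ne_zero (pow_ne_zero _ (tl_ne h)))
  simp only [ModelData.change, Prod.mk_eq_zero, mul_eq_zero, hd, false_or] at hη
  obtain ⟨h1, h2⟩ := hη
  rw [h2, zero_smul, add_zero, smul_eq_zero] at h1
  exact Prod.ext (h1.resolve_left hc) h2

lemma frame_eq_zero (hi : pi D b w ∈ (chart i).source) {η : (Fin 6 → ℂ) × ℂ} :
    frame D i b w η = 0 ↔ η = 0 := by
  constructor
  · intro h
    exact change_eq_zero (chart_pi hi).2 (by simpa [frame] using h)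
  · rintro rfl
    simp [frame, ModelData.change]

/-- The frames are compatible with the cocycle. -/
lemma frame_compat (hi : pi D b w ∈ (chart i).source)
    (hj : pi D b w ∈ (chart j).source) (η : (Fin 6 → ℂ) × ℂ) :
    frame D j b w η ᵥ* (bundle D).g i j (pi D b w) = frame D i b w η := by
  obtain ⟨e, h1⟩ := chart_pi hj
  have h2 := (chart_transition hj hi).2
  have h3 := (chart_pi hi).2
  rw [upK_add hj hi, Int.cast_add, add_mul] at h3
  rw [e] at h2
  simp only [Matrix.cons_val_one, Matrix.cons_val_fin_one] at h2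
  rw [frame, frame, vecMul_g, upK_add hj hi, e]
  simp only [Matrix.cons_val_zero, Matrix.cons_val_one, Matrix.cons_val_fin_one]
  rw [ModelData.change_comp h1 h2 h3]

/-- The frames are invariant under translations of the cover. -/
lemma frame_deck (k m : ℤ) {a : Bool} {z u : ℂ} (h : stepOK (k * D.α) a b u)
    (hi : pi D a (z, u) ∈ (chart i).source) (η : (Fin 6 → ℂ) × ℂ) :
    frame D i b (z + m + k * D.τ, step (k * D.α) a b u) (D.change k a b z u η)
      = frame D i a (z, u) η := by
  have h2 := (chart_pi (D := D) (i := i) (b := b) (w := (z + m + k * D.τ, step (k * D.α) a b u))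
    (by rwa [pi_deck k m h])).2
  have h3 := (chart_pi hi).2
  rw [upK_deck k m h] at h2
  rw [show upK D i a (z, u) = k + (upK D i a (z, u) - k) by ring, Int.cast_add,
    add_mul] at h3
  rw [frame, frame, upK_deck k m h, ModelData.change_comp h h2 h3, add_sub_cancel]

lemma contDiffAt_change {k : ℤ} {a c : Bool} {p : (ℂ × ℂ) × ((Fin 6 → ℂ) × ℂ)}
    (h : stepOK (k * D.α) a c p.1.2) :
    ContDiffAt ℂ ω (fun q : (ℂ × ℂ) × ((Fin 6 → ℂ) × ℂ) => D.change k a c q.1.1 q.1.2 q.2) p := by
  have hz : ContDiffAt ℂ ω (fun q : (ℂ × ℂ) × ((Fin 6 → ℂ) × ℂ) => q.1.1) p := by fun_prop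
  have hu : ContDiffAt ℂ ω (fun q : (ℂ × ℂ) × ((Fin 6 → ℂ) × ℂ) => q.1.2) p := by fun_prop
  have hM (r s : ℂ) : ContDiffAt ℂ ω
      (fun q : (ℂ × ℂ) × ((Fin 6 → ℂ) × ℂ) => (mult D.τ r s k q.1.1)⁻¹) p :=
    ((contDiff_mult _ _ _ _).contDiffAt.comp p hz).inv (mult_ne _ _ _ _ _)
  have hth (f : ℂ → ℂ) (hf : Differentiable ℂ f) :
      ContDiffAt ℂ ω (fun q : (ℂ × ℂ) × ((Fin 6 → ℂ) × ℂ) => f q.1.1) p :=
    hf.contDiff.contDiffAt.comp p hz
  have hC := (hM D.γ D.δ).mul (((contDiffAt_tl (A := k * D.α) (a := a) (b := c)).comp p hu).pow 2)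
  have hD := ((hM D.γ D.δ).mul ((contDiffAt_td h).comp p hu)).mul (hM D.α D.β)
  refine ((hC.smul (contDiffAt_snd.fst)).add ((contDiffAt_snd.snd).smul
    (contDiffAt_pi.2 fun n => ?_))).prodMk (hD.mul contDiffAt_snd.snd)
  simp only [ModelData.coefV]
  refine (hM D.γ D.δ).mul ?_
  cases a <;> cases c <;> simp only [tv, stepOK] at h ⊢ <;>
    have h0 := hth _ (D.hθ n) <;> have h1 := hth _ (D.hθ₁ n) <;> have h2 := hth _ (D.hθ₂ n) <;>
    fun_prop (disch := simp [h])

/-- The frames are analytic. -/
lemma contDiffAt_frame {p : (ℂ × ℂ) × ((Fin 6 → ℂ) × ℂ)}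
    (hi : pi D b p.1 ∈ (chart i).source) :
    ContDiffAt ℂ ω (fun q : (ℂ × ℂ) × ((Fin 6 → ℂ) × ℂ) => frame D i b q.1 q.2) p := by
  have h := (toFin.toContinuousLinearEquiv.contDiff.contDiffAt).comp p
    (contDiffAt_change (chart_pi hi).2)
  refine h.congr_of_eventuallyEq ?_
  filter_upwards [continuous_fst.continuousAt.eventually (eventually_up hi)] with q hq
  simp [frame, hq.2.1]

/-- Chart points related by a translation come from the same point of the surface. -/
lemma eq_of_deck {x y : Surf D} {j : Idx} (hi : x ∈ (chart i).source) (hj : y ∈ (chart j).source)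
    (k m : ℤ) (h : stepOK (k * D.α) i.2.2 j.2.2 (chart i x 1))
    (h0 : chart j y 0 = chart i x 0 + m + k * D.τ)
    (h1 : chart j y 1 = step (k * D.α) i.2.2 j.2.2 (chart i x 1)) : x = y := by
  rw [← pi_chart hi, ← pi_chart hj, h0, h1, pi_deck k m h]

/-- Over its own chart a frame is the identity. -/
lemma frame_chart {x : Surf D} (hi : x ∈ (chart i).source) (η : (Fin 6 → ℂ) × ℂ) :
    frame D i i.2.2 (chart i x 0, chart i x 1) η = toFin η := by
  have hk : upK D i i.2.2 (chart i x 0, chart i x 1) = 0 := by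
    rw [upK, pi_chart hi, chart_zero, coB_zOf, sub_self, round_zero]
  rw [frame, hk]
  obtain ⟨h1, h2, h3⟩ := ModelData.coef_self (D := D) (a := i.2.2) (chart i x 0) (chart i x 1)
  congr 1
  refine Prod.ext (funext fun n => ?_) ?_ <;> simp [ModelData.change, h1, h2, h3]

end Vale.Agent.P296.Surf
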