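import Vale.Agent.P296.Model.Inst
import Vale.Agent.P296.Model.Lemmas
import Vale.Agent.P296.Ample.Move

/-!
# P296: the cocycle of the surface is the frozen dictionary

For `modelData τ q` the changes of dual coordinates are `atInfty`, `fromInfty`, `desc`, `descI`.
-/

noncomputable section

namespace Vale.Agent.P296.Model

open Surf

variable {τ : ℂ} {hτ : 0 < τ.im} {q : ℕ} {hq : 0 < q}

/-- The data of the counterexample are the frozen ones. -/
lemma modelData_matches : Ample.Matches (modelData τ hτ q hq) τ q where
  tau_eq := rfl
  theta_eq _ := rfl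
  alpha_eq := rfl
  mq_eq z := mq_eq_exp τ q z
  eP_eq z := eP_eq_exp τ q z

/-- Chart `t` to chart `s`. -/
lemma change_glue (z t : ℂ) (x : V) (ht : t ≠ 0) :
    (modelData τ hτ q hq).change 0 false true z t x = atInfty τ z t x :=
  congrArg Ample.Pt.x (modelData_matches.move_chart z t x ht)

/-- Chart `s` to chart `t`. -/
lemma change_unglue (z s : ℂ) (x : V) (hs : s ≠ 0) :
    (modelData τ hτ q hq).change 0 true false z s x = fromInfty τ z s x := by
  have M : Ample.Matches (modelData τ hτ q hq) τ q := modelData_matches
  refine Prod.ext (funext fun n => ?_) ?_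
  · simp [ModelData.change, ModelData.coefC, ModelData.coefV, mult_zero, tl, tv, fromInfty, Gi,
      M.thd0, M.thd1, M.thd2]
    field_simp
  · simp [ModelData.change, ModelData.coefD, mult_zero, td, fromInfty]
    ring

/-- The translation by `qτ` in the chart `t`. -/
lemma change_tau (z t : ℂ) (x : V) :
    (modelData τ hτ q hq).change 1 false false z t x = desc τ q z x :=
  congrArg Ample.Pt.x (modelData_matches.move_one (⟨false, z, t, x⟩ : Ample.Pt))

/-- The translation by `qτ` in the chart `s`. -/
lemma change_tau_inf (z s : ℂ) (x : V) :
    (modelData τ hτ q hq).change 1 true true z s x = descI τ q z s x :=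
  congrArg Ample.Pt.x (modelData_matches.move_one (⟨true, z, s, x⟩ : Ample.Pt))

/-- The base map of the translation in the chart `t`. -/
lemma step_tau (t : ℂ) :
    step (((1 : ℤ) : ℂ) * (modelData τ hτ q hq).α) false false t = t + q * kap := by
  simp [step, modelData]

/-- The base map of the translation in the chart `s`. -/
lemma step_tau_inf (s : ℂ) :
    step (((1 : ℤ) : ℂ) * (modelData τ hτ q hq).α) true true s = s / (1 + q * kap * s) := by
  simp [step, modelData]

end Vale.Agent.P296.Model
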