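import Vale.Agent.P296.Model.Bundle

/-!
# The covering of the surface by `ℂ × ℙ¹`, and the dual frames upstairs

`proj κ` maps the chart of kind `κ` of `ℂ × ℙ¹` to the surface. Near a point it differs from a chart
by a translation `k τ + m`; so the dual coordinates upstairs give a dual frame in that chart, and
these frames are related by the cocycle of the bundle.
-/

noncomputable section

namespace Vale.Agent.P296

open scoped Manifold ContDiff Topology Matrix
open Filter OnePoint

namespace Surf

variable {D : ModelData}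

/-- The finite fibre coordinate below `(z, u)`. -/
def pfin (D : ModelData) : Bool → ℂ → ℂ → ℂ
  | false => fun z u => u - coB D z * D.α
  | true => fun z u => u⁻¹ - coB D z * D.α

/-- The fibre coordinate below `(z, u)`. -/
def pfib (D : ModelData) : Bool → ℂ → ℂ → OnePoint ℂ
  | false => fun z u => (pfin D false z u : OnePoint ℂ)
  | true => fun z u => if u = 0 then OnePoint.infty else (pfin D true z u : OnePoint ℂ)

/-- The point below `(z, u)` in the chart of kind `κ` upstairs. -/
def proj (D : ModelData) (κ : Bool) (p : ℂ × ℂ) : Surf D :=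
  (((coA D p.1 : ℝ) : UnitAddCircle), ((coB D p.1 : ℝ) : UnitAddCircle), pfib D κ p.1 p.2)

lemma continuous_pfib_true : Continuous fun p : ℂ × ℂ => pfib D true p.1 p.2 := by
  have hc : Continuous fun p : ℂ × ℂ => (coB D p.1 : ℂ) :=
    Complex.continuous_ofReal.comp (continuous_coB.comp continuous_fst)
  refine continuous_iff_continuousAt.2 fun p => ?_
  by_cases hp : p.2 = 0
  · have h1 : ∀ᶠ q : ℂ × ℂ in 𝓝 p, 1 - (coB D q.1 : ℂ) * D.α * q.2 ≠ 0 :=
      (isOpen_ne_fun (continuous_const.sub ((hc.mul continuous_const).mul continuous_snd))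
        continuous_const).mem_nhds (by simp [hp])
    have h2 : ContinuousAt (fun q : ℂ × ℂ => fibInf (q.2 / (1 - (coB D q.1 : ℂ) * D.α * q.2))) p :=
      ContinuousAt.comp (g := fibInf) (fibInf.continuousAt (Set.mem_univ _))
        (continuousAt_snd.div (continuousAt_const.sub
          ((hc.continuousAt.mul continuousAt_const).mul continuousAt_snd)) (by simp [hp]))
    refine h2.congr ?_
    filter_upwards [h1] with q hq
    show (if q.2 / _ = 0 then OnePoint.infty else ((_ : ℂ) : OnePoint ℂ)) = _
    by_cases hu : q.2 = 0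
    · simp [pfib, hu]
    · simp only [pfib, pfin, if_neg (div_ne_zero hu hq), if_neg hu, inv_div]
      congr 1
      field_simp
  · have h : ContinuousAt (fun q : ℂ × ℂ => ((pfin D true q.1 q.2 : ℂ) : OnePoint ℂ)) p :=
      continuous_coe.continuousAt.comp
        (((continuousAt_snd.inv₀ hp).sub (hc.continuousAt.mul continuousAt_const)))
    refine h.congr ?_
    filter_upwards [continuousAt_snd.eventually_ne hp] with q hq
    simp [pfib, hq]

lemma continuous_proj (κ : Bool) : Continuous (proj D κ) := by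
  refine Continuous.prodMk ?_ (Continuous.prodMk ?_ ?_)
  · exact (AddCircle.continuous_mk' 1).comp (continuous_coA.comp continuous_fst)
  · exact (AddCircle.continuous_mk' 1).comp (continuous_coB.comp continuous_fst)
  · cases κ
    · exact continuous_coe.comp (continuous_snd.sub
        ((Complex.continuous_ofReal.comp (continuous_coB.comp continuous_fst)).mul continuous_const))
    · exact continuous_pfib_true

/-- The vertical translation from upstairs to the chart `i`. -/
def kl (κ : Bool) (i : Idx) (p : ℂ × ℂ) : ℤ := round (lb i (proj D κ p) - coB D p.1)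

/-- The horizontal translation from upstairs to the chart `i`. -/
def ml (κ : Bool) (i : Idx) (p : ℂ × ℂ) : ℤ := round (la i (proj D κ p) - coA D p.1)

variable {i j : Idx} {κ : Bool} {p : ℂ × ℂ}

lemma exists_lift_of_coe {c : Fin 2} {u : UnitAddCircle} {v : ℝ} (h : u ∈ (liftR c).target)
    (e : ((v : ℝ) : UnitAddCircle) = u) : ∃ n : ℤ, (liftR c).symm u = v + n := by
  have e' : (((liftR c).symm u : ℝ) : UnitAddCircle) = u := (liftR c).right_inv h
  obtain ⟨n, hn⟩ := AddSubgroup.mem_zmultiples_iff.1
    ((QuotientAddGroup.eq_iff_sub_mem).1 (e'.trans e.symm))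
  refine ⟨n, ?_⟩
  simp only [zsmul_eq_mul, mul_one] at hn
  linarith

lemma lb_proj (hx : proj D κ p ∈ (chart i).source) :
    lb i (proj D κ p) = coB D p.1 + kl (D := D) κ i p := by
  obtain ⟨n, hn⟩ := exists_lift_of_coe (v := coB D p.1) (mem_lifts hx).2.1 rfl
  rw [kl, show lb i (proj D κ p) - coB D p.1 = (n : ℝ) by simp [lb, hn], round_intCast]
  exact hn

lemma la_proj (hx : proj D κ p ∈ (chart i).source) :
    la i (proj D κ p) = coA D p.1 + ml (D := D) κ i p := by
  obtain ⟨n, hn⟩ := exists_lift_of_coe (v := coA D p.1) (mem_lifts hx).1 rfl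
  rw [ml, show la i (proj D κ p) - coA D p.1 = (n : ℝ) by simp [la, hn], round_intCast]
  exact hn

/-- A chart at a point below is a translate of the chart upstairs. -/
lemma chart_proj (hx : proj D κ p ∈ (chart i).source) :
    chart i (proj D κ p) = !₂[p.1 + ml (D := D) κ i p + kl (D := D) κ i p * D.τ,
        step (kl (D := D) κ i p * D.α) κ i.2.2 p.2]
      ∧ stepOK (kl (D := D) κ i p * D.α) κ i.2.2 p.2 := by
  set k := kl (D := D) κ i p
  have h0 : chart i (proj D κ p) 0 = p.1 + ml (D := D) κ i p + k * D.τ := by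
    rw [chart_zero, zOf, la_proj hx, lb_proj hx]
    conv_rhs => rw [← zOf_coords (D := D) p.1, zOf]
    push_cast
    ring
  suffices h : chart i (proj D κ p) 1 = step (k * D.α) κ i.2.2 p.2
      ∧ stepOK (k * D.α) κ i.2.2 p.2 by
    refine ⟨?_, h.2⟩
    ext n
    fin_cases n
    · simpa using h0
    · simpa using h.1
  obtain ⟨c, d, ki⟩ := i
  have hlb : (lb (c, d, ki) (proj D κ p) : ℂ) = coB D p.1 + k := by
    rw [lb_proj hx]; push_cast; rfl
  cases κ
  · have hp : (proj D false p).2.2 = ((pfin D false p.1 p.2 : ℂ) : OnePoint ℂ) := rfl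
    have hT : tOf (c, d, ki) (proj D false p) (pfin D false p.1 p.2) = p.2 + k * D.α := by
      rw [tOf, hlb, pfin]; ring
    cases ki
    · rw [chart_one_false hp, hT]; exact ⟨rfl, trivial⟩
    · obtain ⟨hne, he⟩ := chart_one_true hp hx
      rw [hT] at hne he
      exact ⟨he, hne⟩
  · by_cases hu : p.2 = 0
    · have hp : (proj D true p).2.2 = OnePoint.infty := by simp [proj, pfib, hu]
      obtain rfl : ki = true := kind_of_infty hp hx
      rw [chart_one_infty hp]
      simp [step, stepOK, hu]
    · have hp : (proj D true p).2.2 = ((pfin D true p.1 p.2 : ℂ) : OnePoint ℂ) := by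
        simp [proj, pfib, hu]
      have hT : tOf (c, d, ki) (proj D true p) (pfin D true p.1 p.2) = (1 + k * D.α * p.2) / p.2 := by
        rw [tOf, hlb, pfin, add_div, mul_div_assoc, div_self hu, one_div]; ring
      cases ki
      · rw [chart_one_false hp, hT]; exact ⟨rfl, hu⟩
      · obtain ⟨hne, he⟩ := chart_one_true hp hx
        rw [hT] at hne he
        refine ⟨he.trans (inv_div _ _), fun h => hne ?_⟩
        rw [h, zero_div]

lemma eventually_kl_ml (hx : proj D κ p ∈ (chart i).source) :
    ∀ᶠ q in 𝓝 p, proj D κ q ∈ (chart i).source ∧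
      kl (D := D) κ i q = kl (D := D) κ i p ∧ ml (D := D) κ i q = ml (D := D) κ i p := by
  have hn : ∀ᶠ q in 𝓝 p, proj D κ q ∈ (chart i).source :=
    (continuous_proj κ).continuousAt ((chart i).open_source.mem_nhds hx)
  have hb : ContinuousAt (fun q : ℂ × ℂ => lb i (proj D κ q) - coB D q.1) p :=
    (((continuousOn_lb i).continuousAt ((chart i).open_source.mem_nhds hx)).comp
      (continuous_proj κ).continuousAt).sub (continuous_coB.comp continuous_fst).continuousAt
  have ha : ContinuousAt (fun q : ℂ × ℂ => la i (proj D κ q) - coA D q.1) p :=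
    (((continuousOn_la i).continuousAt ((chart i).open_source.mem_nhds hx)).comp
      (continuous_proj κ).continuousAt).sub (continuous_coA.comp continuous_fst).continuousAt
  filter_upwards [hn, hb.eventually (Metric.ball_mem_nhds _ one_pos),
    ha.eventually (Metric.ball_mem_nhds _ one_pos)] with q hq h1 h2
  rw [Real.dist_eq, lb_proj hq, lb_proj hx, add_sub_cancel_left, add_sub_cancel_left] at h1
  rw [Real.dist_eq, la_proj hq, la_proj hx, add_sub_cancel_left, add_sub_cancel_left] at h2
  exact ⟨hq, sub_eq_zero.1 (Int.abs_lt_one_iff.1 (by exact_mod_cast h1)),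
    sub_eq_zero.1 (Int.abs_lt_one_iff.1 (by exact_mod_cast h2))⟩

/-- The projection is analytic in the charts. -/
lemma analyticAt_proj (κ : Bool) (p : ℂ × ℂ) :
    AnalyticAt ℂ (fun q => chartAt (Cn 2) (proj D κ p) (proj D κ q)) p := by
  rw [chartAt_eq]
  set i := idxAt (proj D κ p)
  have hx : proj D κ p ∈ (chart i).source := mem_idxAt _
  have hok := (chart_proj hx).2
  refine ContDiffAt.analyticAt (ContDiffAt.congr_of_eventuallyEq
    (f := fun q : ℂ × ℂ => !₂[q.1 + ml (D := D) κ i p + kl (D := D) κ i p * D.τ,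
      step (kl (D := D) κ i p * D.α) κ i.2.2 q.2]) ?_ ?_)
  · rw [contDiffAt_euclidean]
    intro n
    fin_cases n
    · simp only [Fin.zero_eta, Matrix.cons_val_zero]
      fun_prop
    · simp only [Fin.mk_one, Matrix.cons_val_one, Matrix.cons_val_fin_one]
      exact (contDiffAt_step hok).comp p contDiffAt_snd
  · filter_upwards [eventually_kl_ml hx] with q hq
    have h := (chart_proj hq.1).1
    rw [hq.2.1, hq.2.2] at h
    exact h

/-! ## Dual frames upstairs -/

/-- Dual coordinates as a row. -/
def toRow (η : (Fin 6 → ℂ) × ℂ) : Fin 7 → ℂ := Fin.snoc η.1 η.2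

lemma toRow_castSucc (η : (Fin 6 → ℂ) × ℂ) (n : Fin 6) : toRow η n.castSucc = η.1 n :=
  Fin.snoc_castSucc (α := fun _ => ℂ) _ _ _

lemma toRow_last (η : (Fin 6 → ℂ) × ℂ) : toRow η (Fin.last 6) = η.2 :=
  Fin.snoc_last (α := fun _ => ℂ) _ _

/-- The dual frame of the chart `i` in the coordinates upstairs. -/
def row (D : ModelData) (κ : Bool) (i : Idx) (p : ℂ × ℂ) :
    ((Fin 6 → ℂ) × ℂ) →ₗ[ℂ] (Fin 7 → ℂ) where
  toFun η := toRow (D.change (kl (D := D) κ i p) κ i.2.2 p.1 p.2 η)
  map_add' x y := by
    funext n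
    induction n using Fin.lastCases with
    | last =>
      simp only [Pi.add_apply, toRow_last, ModelData.change, Prod.snd_add]
      ring
    | cast n =>
      simp only [Pi.add_apply, toRow_castSucc, ModelData.change, Prod.fst_add, Prod.snd_add,
        Pi.smul_apply, smul_eq_mul]
      ring
  map_smul' c x := by
    funext n
    induction n using Fin.lastCases with
    | last =>
      simp only [Pi.smul_apply, toRow_last, ModelData.change, Prod.smul_snd, smul_eq_mul,
        RingHom.id_apply]
      ring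
    | cast n =>
      simp only [Pi.smul_apply, Pi.add_apply, toRow_castSucc, ModelData.change, Prod.smul_fst,
        Prod.smul_snd, smul_eq_mul, RingHom.id_apply]
      ring

lemma row_apply (η : (Fin 6 → ℂ) × ℂ) :
    row D κ i p η = toRow (D.change (kl (D := D) κ i p) κ i.2.2 p.1 p.2 η) := rfl

lemma row_injective (hx : proj D κ p ∈ (chart i).source) : Function.Injective (row D κ i p) := by
  have hok := (chart_proj hx).2
  set k := kl (D := D) κ i p
  have hC : D.coefC k κ i.2.2 p.1 p.2 ≠ 0 :=
    mul_ne_zero (inv_ne_zero (mult_ne _ _ _ _ _)) (pow_ne_zero _ (tl_ne hok))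
  have hD : D.coefD k κ i.2.2 p.1 p.2 ≠ 0 := by
    refine mul_ne_zero (mul_ne_zero (inv_ne_zero (mult_ne _ _ _ _ _)) ?_)
      (inv_ne_zero (mult_ne _ _ _ _ _))
    rw [td_eq]
    exact mul_ne_zero (by split_ifs <;> simp) (inv_ne_zero (pow_ne_zero _ (tl_ne hok)))
  refine (injective_iff_map_eq_zero (row D κ i p)).2 fun η h => ?_
  have h2 := congrFun h (Fin.last 6)
  rw [row_apply, toRow_last, Pi.zero_apply] at h2
  have ha : η.2 = 0 := (mul_eq_zero.1 h2).resolve_left hD
  refine Prod.ext (funext fun n => ?_) ha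
  have h1 := congrFun h n.castSucc
  rw [row_apply, toRow_castSucc, Pi.zero_apply] at h1
  simp only [ModelData.change, ha, zero_smul, add_zero, Pi.smul_apply, smul_eq_mul] at h1
  exact (mul_eq_zero.1 h1).resolve_left hC

/-- The frames upstairs are related by the cocycle of the bundle. -/
lemma row_compat (hi : proj D κ p ∈ (chart i).source) (hj : proj D κ p ∈ (chart j).source)
    (η : (Fin 6 → ℂ) × ℂ) :
    row D κ j p η = row D κ i p η ᵥ* (bundle D).g j i (proj D κ p) := by
  obtain ⟨hc, hok⟩ := chart_proj hi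
  obtain ⟨-, hok2⟩ := chart_transition hi hj
  have hadd : kl (D := D) κ j p = kl (D := D) κ i p + kk i j (proj D κ p) := by
    have h1 := lb_proj hi
    have h2 := lb_proj hj
    have h3 := lb_eq hi hj
    exact_mod_cast (show (kl (D := D) κ j p : ℝ) = kl (D := D) κ i p + kk i j (proj D κ p) by
      linarith)
  have hok3 := (chart_proj hj).2
  rw [hadd, Int.cast_add, add_mul] at hok3
  have e0 : chart i (proj D κ p) 0 = p.1 + ml (D := D) κ i p + kl (D := D) κ i p * D.τ := by
    rw [hc]; simp
  have e1 : chart i (proj D κ p) 1 = step (kl (D := D) κ i p * D.α) κ i.2.2 p.2 := by rw [hc]; simp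
  rw [e1] at hok2
  have key := ModelData.change_comp (D := D) (m := ml (D := D) κ i p) (z := p.1) hok hok2 hok3 η
  funext n
  rw [row_apply, hadd, ← key]
  induction n using Fin.lastCases with
  | last =>
    rw [vecMul_g_last, toRow_last, row_apply, toRow_last, df, e0, e1]
    rfl
  | cast n =>
    rw [vecMul_g_castSucc, toRow_castSucc, row_apply, toRow_castSucc, toRow_last, cf, vf, e0, e1]
    rfl

/-- The frames upstairs are holomorphic. -/
lemma analyticAt_row (hx : proj D κ p ∈ (chart i).source) (n : Fin 7) (η : (Fin 6 → ℂ) × ℂ) :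
    AnalyticAt ℂ (fun q : (ℂ × ℂ) × ((Fin 6 → ℂ) × ℂ) => row D κ i q.1 q.2 n) (p, η) := by
  have hok := (chart_proj hx).2
  set k := kl (D := D) κ i p
  set q₀ : (ℂ × ℂ) × ((Fin 6 → ℂ) × ℂ) := (p, η)
  have h0 : ContDiffAt ℂ ω (fun q : (ℂ × ℂ) × ((Fin 6 → ℂ) × ℂ) => q.1.1) q₀ := by fun_prop
  have h1 : ContDiffAt ℂ ω (fun q : (ℂ × ℂ) × ((Fin 6 → ℂ) × ℂ) => q.1.2) q₀ := by fun_prop
  have hM (a b : ℂ) :
      ContDiffAt ℂ ω (fun q : (ℂ × ℂ) × ((Fin 6 → ℂ) × ℂ) => (mult D.τ a b k q.1.1)⁻¹) q₀ :=
    ((contDiff_mult _ _ _ _).contDiffAt.comp q₀ h0).inv (mult_ne _ _ _ _ _)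
  have hC : ContDiffAt ℂ ω
      (fun q : (ℂ × ℂ) × ((Fin 6 → ℂ) × ℂ) => D.coefC k κ i.2.2 q.1.1 q.1.2) q₀ :=
    (hM D.γ D.δ).mul (((contDiffAt_tl (A := k * D.α) (a := κ) (b := i.2.2)).comp q₀ h1).pow 2)
  have hD : ContDiffAt ℂ ω
      (fun q : (ℂ × ℂ) × ((Fin 6 → ℂ) × ℂ) => D.coefD k κ i.2.2 q.1.1 q.1.2) q₀ :=
    ((hM D.γ D.δ).mul ((contDiffAt_td hok).comp q₀ h1)).mul (hM D.α D.β)
  have hV : ∀ l : Fin 6, ContDiffAt ℂ ω
      (fun q : (ℂ × ℂ) × ((Fin 6 → ℂ) × ℂ) => D.coefV k κ i.2.2 q.1.1 q.1.2 l) q₀ := fun l => by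
    have hu : ContDiffAt ℂ ω
        (fun q : (ℂ × ℂ) × ((Fin 6 → ℂ) × ℂ) => (!₂[q.1.1, q.1.2] : Cn 2)) q₀ := by
      rw [contDiffAt_euclidean]
      intro l; fin_cases l
      · simpa using h0
      · simpa using h1
    have hth (f : ℂ → ℂ) (hf : Differentiable ℂ f) :
        ContDiffAt ℂ ω (fun v : Cn 2 => f (v 0)) !₂[p.1, p.2] :=
      hf.contDiff.contDiffAt.comp _ (by fun_prop)
    have hv := (contDiffAt_tv (u := !₂[p.1, p.2]) (A := k * D.α) (a := κ) (b := i.2.2)
      (by simpa using hok) (hth _ (D.hθ l)) (hth _ (D.hθ₁ l)) (hth _ (D.hθ₂ l))).comp q₀ hu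
    simpa [ModelData.coefV, Function.comp_def] using (hM D.γ D.δ).mul hv
  refine ContDiffAt.analyticAt (ContDiffAt.congr_of_eventuallyEq
    (f := fun q : (ℂ × ℂ) × ((Fin 6 → ℂ) × ℂ) => toRow (D.change k κ i.2.2 q.1.1 q.1.2 q.2) n) ?_ ?_)
  · induction n using Fin.lastCases with
    | last =>
      simp only [toRow_last, ModelData.change]
      exact hD.mul (by fun_prop)
    | cast n =>
      simp only [toRow_castSucc, ModelData.change, Pi.add_apply, Pi.smul_apply, smul_eq_mul]
      exact (hC.mul (by fun_prop)).add (ContDiffAt.mul (by fun_prop) (hV n))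
  · filter_upwards [(continuousAt_fst (p := q₀)).eventually (eventually_kl_ml hx)] with q hq
    rw [row_apply, hq.2.1]

/-! ## Translations upstairs -/

/-- Upstairs, translations and changes of the fibre chart do not move the point below. -/
lemma proj_translate {κ' : Bool} {k m : ℤ} {z u : ℂ} (h : stepOK (k * D.α) κ κ' u) :
    proj D κ' (z + m + k * D.τ, step (k * D.α) κ κ' u) = proj D κ (z, u) := by
  have hB : coB D (z + m + k * D.τ) = coB D z + k := by
    have e : z + m + k * D.τ = zOf D (coA D z + m) (coB D z + k) := by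
      conv_lhs => rw [← zOf_coords (D := D) z]
      simp only [zOf]; push_cast; ring
    rw [e, coB_zOf]
  have hA : coA D (z + m + k * D.τ) = coA D z + m := by
    have e : z + m + k * D.τ = zOf D (coA D z + m) (coB D z + k) := by
      conv_lhs => rw [← zOf_coords (D := D) z]
      simp only [zOf]; push_cast; ring
    rw [e, coA_zOf]
  have hcirc : ∀ (r : ℝ) (n : ℤ), ((r + n : ℝ) : UnitAddCircle) = (r : UnitAddCircle) := fun r n => by
    rw [AddCircle.coe_add]
    have : ((n : ℝ) : UnitAddCircle) = 0 := by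
      rw [show (n : ℝ) = n • (1 : ℝ) by simp, AddCircle.coe_zsmul, AddCircle.coe_period, smul_zero]
    rw [this, add_zero]
  refine Prod.ext ?_ (Prod.ext ?_ ?_)
  · show ((coA D (z + m + k * D.τ) : ℝ) : UnitAddCircle) = _
    rw [hA, hcirc]; rfl
  · show ((coB D (z + m + k * D.τ) : ℝ) : UnitAddCircle) = _
    rw [hB, hcirc]; rfl
  show pfib D κ' (z + m + k * D.τ) (step (k * D.α) κ κ' u) = pfib D κ z u
  cases κ <;> cases κ' <;> simp only [step, stepOK, pfib, pfin, hB] at h ⊢
  · congr 1; push_cast; ring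
  · rw [if_neg (inv_ne_zero h), inv_inv]
    congr 1; push_cast; ring
  · rw [if_neg h]
    congr 1
    rw [add_div, mul_div_assoc, div_self h, one_div]
    push_cast; ring
  · by_cases hu : u = 0
    · simp [hu]
    · rw [if_neg (div_ne_zero hu h), if_neg hu]
      congr 1
      rw [inv_div, add_div, mul_div_assoc, div_self hu, one_div]
      push_cast; ring

/-- The frames upstairs are equivariant under translations and changes of the fibre chart. -/
lemma row_translate {κ' : Bool} {k m : ℤ} {z u : ℂ} (h : stepOK (k * D.α) κ κ' u)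
    (hx : proj D κ (z, u) ∈ (chart i).source) (η : (Fin 6 → ℂ) × ℂ) :
    row D κ' i (z + m + k * D.τ, step (k * D.α) κ κ' u) (D.change k κ κ' z u η) =
      row D κ i (z, u) η := by
  have hx' : proj D κ' (z + m + k * D.τ, step (k * D.α) κ κ' u) ∈ (chart i).source := by
    rw [proj_translate h]; exact hx
  set l := kl (D := D) κ' i (z + m + k * D.τ, step (k * D.α) κ κ' u)
  have hk : kl (D := D) κ i (z, u) = k + l := by
    have h1 := lb_proj hx
    have h2 := lb_proj hx'
    rw [proj_translate h] at h2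
    have e : z + m + k * D.τ = zOf D (coA D z + m) (coB D z + k) := by
      conv_lhs => rw [← zOf_coords (D := D) z]
      simp only [zOf]; push_cast; ring
    simp only [e, coB_zOf] at h2
    exact_mod_cast (show (kl (D := D) κ i (z, u) : ℝ) = k + l by
      simp only [l, e] at *; linarith)
  have h3 := (chart_proj hx).2
  rw [hk, Int.cast_add, add_mul] at h3
  rw [row_apply, row_apply, hk, ModelData.change_comp (D := D) (m := m) h (chart_proj hx').2 h3 η]

end Surf

end Vale.Agent.P296
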