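import Vale.Agent.P296.Statement

/-!
# The ruled surface over an elliptic curve

Topologically the surface is `(ℝ/ℤ)² × OnePoint ℂ`; the complex charts are
`(z, t) = (a + b τ, p + b K)` and `(z, s) = (a + b τ, 1/(p + b K))`, where `τ = T i` and `(a, b)` are real
lifts.  The translations act by `(z, t) ↦ (z + m + k τ, t + k K)`.
-/

noncomputable section

namespace Vale.Agent.P296

open scoped Manifold ContDiff Topology
open Filter OnePoint

/-- The multiplier of translation by `k τ` of the factor `exp (a z + b)`. -/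
def mult (τ a b : ℂ) (k : ℤ) (z : ℂ) : ℂ :=
  Complex.exp (k * (a * z + b) + a * τ * ((k : ℂ) * (k - 1) / 2))

lemma mult_ne (τ a b : ℂ) (k : ℤ) (z : ℂ) : mult τ a b k z ≠ 0 := Complex.exp_ne_zero _

lemma mult_zero (τ a b z : ℂ) : mult τ a b 0 z = 1 := by simp [mult]

lemma mult_add (τ a b : ℂ) (k l : ℤ) (z : ℂ) :
    mult τ a b (k + l) z = mult τ a b k z * mult τ a b l (z + k * τ) := by
  rw [mult, mult, mult, ← Complex.exp_add]
  congr 1
  push_cast
  ring

lemma mult_add_int (τ a b : ℂ) (ha : Complex.exp a = 1) (k m : ℤ) (z : ℂ) :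
    mult τ a b k (z + m) = mult τ a b k z := by
  have h : Complex.exp ((k * m : ℤ) * a) = 1 := by rw [Complex.exp_int_mul, ha, one_zpow]
  rw [mult, mult, show (k : ℂ) * (a * (z + m) + b) + a * τ * ((k : ℂ) * (k - 1) / 2)
      = ((k : ℂ) * (a * z + b) + a * τ * ((k : ℂ) * (k - 1) / 2)) + ((k * m : ℤ) : ℂ) * a by
        push_cast; ring, Complex.exp_add, h, mul_one]

/-- The data: the period, the six theta functions with their factor, and the twist. -/
structure ModelData where
  τ : ℂ
  hτ : τ.im ≠ 0
  α : ℂ
  β : ℂ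
  γ : ℂ
  δ : ℂ
  hα : Complex.exp α = 1
  hγ : Complex.exp γ = 1
  θ : Fin 6 → ℂ → ℂ
  hθ : ∀ i, Differentiable ℂ (θ i)
  per : ∀ i z, θ i (z + 1) = θ i z
  quasi : ∀ i z, θ i (z + τ) = Complex.exp (α * z + β) * θ i z

/-- The surface. -/
def Surf (_D : ModelData) : Type := UnitAddCircle × UnitAddCircle × OnePoint ℂ

namespace Surf

variable {D : ModelData}

instance : TopologicalSpace (Surf D) :=
  inferInstanceAs (TopologicalSpace (UnitAddCircle × UnitAddCircle × OnePoint ℂ))
instance : T2Space (Surf D) := inferInstanceAs (T2Space (UnitAddCircle × UnitAddCircle × OnePoint ℂ))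
instance : CompactSpace (Surf D) :=
  inferInstanceAs (CompactSpace (UnitAddCircle × UnitAddCircle × OnePoint ℂ))
instance : ConnectedSpace (Surf D) :=
  inferInstanceAs (ConnectedSpace (UnitAddCircle × UnitAddCircle × OnePoint ℂ))

/-- Indices of the charts: two centres for each real coordinate and the kind of the fibre chart
(`true` is the chart at infinity). -/
abbrev Idx : Type := Fin 2 × Fin 2 × Bool

/-- The centres. -/
def cen : Fin 2 → ℝ := ![0, 1 / 2]

/-- The real lift of a point of the circle. -/
def liftR (c : Fin 2) : OpenPartialHomeomorph ℝ UnitAddCircle :=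
  AddCircle.openPartialHomeomorphCoe (1 : ℝ) (cen c)

/-- The inverse map of the sphere as a chart at infinity. -/
def fibInf : OpenPartialHomeomorph ℂ (OnePoint ℂ) where
  toFun s := if s = 0 then OnePoint.infty else ((s⁻¹ : ℂ) : OnePoint ℂ)
  invFun q := q.elim 0 fun p => p⁻¹
  source := Set.univ
  target := {((0 : ℂ) : OnePoint ℂ)}ᶜ
  map_source' s _ := by
    by_cases hs : s = 0 <;> simp [hs, inv_eq_zero]
  map_target' _ _ := Set.mem_univ _
  left_inv' s _ := by
    by_cases hs : s = 0 <;> simp [hs]
  right_inv' q hq := by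
    induction q using OnePoint.rec with
    | infty => simp
    | coe p => simp at hq; simp [hq]
  open_source := isOpen_univ
  open_target := isOpen_compl_singleton
  continuousOn_toFun := by
    refine Continuous.continuousOn (continuous_iff_continuousAt.2 fun s => ?_)
    rcases eq_or_ne s 0 with rfl | hs
    · rw [continuousAt_iff_punctured_nhds]
      simp only [↓reduceIte]
      have h : Tendsto (fun s : ℂ => ((s⁻¹ : ℂ) : OnePoint ℂ)) (𝓝[≠] 0) (𝓝 OnePoint.infty) := by
        refine tendsto_coe_infty.comp ?_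
        rw [coclosedCompact_eq_cocompact, ← Metric.cobounded_eq_cocompact]
        exact tendsto_inv₀_nhdsNE_zero
      refine h.congr' ?_
      filter_upwards [self_mem_nhdsWithin] with x hx
      rw [if_neg (by simpa using hx)]
    · have h : ContinuousAt (fun s : ℂ => ((s⁻¹ : ℂ) : OnePoint ℂ)) s :=
        continuous_coe.continuousAt.comp (continuousAt_inv₀ hs)
      refine h.congr ?_
      filter_upwards [isOpen_ne.mem_nhds hs] with x hx
      rw [if_neg hx]
  continuousOn_invFun := by
    refine continuousOn_of_forall_continuousAt fun q hq => ?_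
    induction q using OnePoint.rec with
    | infty =>
      rw [continuousAt_infty', coclosedCompact_eq_cocompact, ← Metric.cobounded_eq_cocompact]
      exact tendsto_inv₀_cobounded
    | coe p =>
      have hp : p ≠ 0 := by simpa using hq
      rw [continuousAt_coe]
      exact continuousAt_inv₀ hp

/-- The fibre charts, `true` at infinity. -/
def fib : Bool → OpenPartialHomeomorph ℂ (OnePoint ℂ)
  | false => (isOpenEmbedding_coe (X := ℂ)).toOpenPartialHomeomorph
  | true => fibInf

/-- The base point `a + b τ`. -/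
def zOf (D : ModelData) (a b : ℝ) : ℂ := a + b * D.τ

lemma re_zOf (a b : ℝ) : (zOf D a b).re = a + b * D.τ.re := by simp [zOf]

lemma im_zOf (a b : ℝ) : (zOf D a b).im = b * D.τ.im := by simp [zOf]

/-- The first real coordinate of a point of the cover. -/
def coA (D : ModelData) (z : ℂ) : ℝ := z.re - z.im / D.τ.im * D.τ.re

/-- The second real coordinate of a point of the cover. -/
def coB (D : ModelData) (z : ℂ) : ℝ := z.im / D.τ.im

lemma coB_zOf (a b : ℝ) : coB D (zOf D a b) = b := by
  rw [coB, im_zOf, mul_div_cancel_right₀ _ D.hτ]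

lemma coA_zOf (a b : ℝ) : coA D (zOf D a b) = a := by
  rw [coA, re_zOf, im_zOf, mul_div_cancel_right₀ _ D.hτ]; ring

lemma zOf_coords (z : ℂ) : zOf D (coA D z) (coB D z) = z := by
  apply Complex.ext
  · rw [re_zOf, coA, coB]; ring
  · rw [im_zOf, coB, div_mul_cancel₀ _ D.hτ]

lemma continuous_coA : Continuous (coA D) := by unfold coA; fun_prop

lemma continuous_coB : Continuous (coB D) := by unfold coB; fun_prop

/-- From real lifts to complex coordinates, finite chart. -/
def shearF (D : ModelData) : OpenPartialHomeomorph (ℝ × ℝ × ℂ) (Cn 2) where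
  toFun x := !₂[zOf D x.1 x.2.1, x.2.2 + x.2.1 * D.α]
  invFun w := (coA D (w 0), coB D (w 0), w 1 - (coB D (w 0) : ℂ) * D.α)
  source := Set.univ
  target := Set.univ
  map_source' _ _ := Set.mem_univ _
  map_target' _ _ := Set.mem_univ _
  left_inv' x _ := by
    simp [coA_zOf, coB_zOf]
  right_inv' w _ := by
    ext i
    fin_cases i
    · simp [zOf_coords]
    · simp
  open_source := isOpen_univ
  open_target := isOpen_univ
  continuousOn_toFun := by unfold zOf; fun_prop
  continuousOn_invFun := by unfold coA coB; fun_prop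

/-- From real lifts to complex coordinates, chart at infinity. -/
def shearI (D : ModelData) : OpenPartialHomeomorph (ℝ × ℝ × ℂ) (Cn 2) where
  toFun x := !₂[zOf D x.1 x.2.1, x.2.2 / (1 + x.2.1 * D.α * x.2.2)]
  invFun w := (coA D (w 0), coB D (w 0),
    w 1 / (1 - (coB D (w 0) : ℂ) * D.α * w 1))
  source := {x | 1 + x.2.1 * D.α * x.2.2 ≠ 0}
  target := {w | 1 - (coB D (w 0) : ℂ) * D.α * w 1 ≠ 0}
  map_source' x hx := by
    have hx' : 1 + (x.2.1 : ℂ) * D.α * x.2.2 ≠ 0 := hx
    have e : 1 - (x.2.1 : ℂ) * D.α * (x.2.2 / (1 + x.2.1 * D.α * x.2.2))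
        = 1 / (1 + x.2.1 * D.α * x.2.2) := by rw [mul_div, one_sub_div hx']; ring
    simp [coB_zOf, e, hx']
  map_target' w hw := by
    have hw' : 1 - (coB D (w 0) : ℂ) * D.α * w 1 ≠ 0 := hw
    have e : 1 + (coB D (w 0) : ℂ) * D.α *
        (w 1 / (1 - (coB D (w 0) : ℂ) * D.α * w 1))
        = 1 / (1 - (coB D (w 0) : ℂ) * D.α * w 1) := by
      rw [mul_div, one_add_div hw']; ring
    simp only [Set.mem_ofPred_eq]
    rw [e]
    exact one_div_ne_zero hw'
  left_inv' x hx := by
    have hx' : 1 + (x.2.1 : ℂ) * D.α * x.2.2 ≠ 0 := hx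
    have e : 1 - (x.2.1 : ℂ) * D.α * (x.2.2 / (1 + x.2.1 * D.α * x.2.2))
        = 1 / (1 + x.2.1 * D.α * x.2.2) := by rw [mul_div, one_sub_div hx']; ring
    have e2 : x.2.2 / (1 + x.2.1 * D.α * x.2.2) / (1 / (1 + x.2.1 * D.α * x.2.2)) = x.2.2 := by
      rw [div_div, mul_one_div, div_self hx', div_one]
    simp only [Matrix.cons_val_zero, Matrix.cons_val_one, coA_zOf, coB_zOf, e, e2]
  right_inv' w hw := by
    have hw' : 1 - (coB D (w 0) : ℂ) * D.α * w 1 ≠ 0 := hw
    have e : 1 + (coB D (w 0) : ℂ) * D.α *
        (w 1 / (1 - (coB D (w 0) : ℂ) * D.α * w 1))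
        = 1 / (1 - (coB D (w 0) : ℂ) * D.α * w 1) := by
      rw [mul_div, one_add_div hw']; ring
    ext i
    fin_cases i
    · simp [zOf_coords]
    · simp only [Fin.mk_one, Matrix.cons_val_one, Matrix.cons_val_fin_one]
      rw [e, div_div, mul_one_div, div_self hw', div_one]
  open_source := isOpen_ne_fun (by fun_prop) continuous_const
  open_target := isOpen_ne_fun (by unfold coB; fun_prop) continuous_const
  continuousOn_toFun := by
    unfold zOf
    refine (PiLp.continuous_toLp 2 _).comp_continuousOn (continuousOn_pi.2 fun i => ?_)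
    fin_cases i
    · simp; fun_prop
    · exact ContinuousOn.div (by fun_prop) (by fun_prop) fun x hx => hx
  continuousOn_invFun := by
    unfold coA coB
    refine ContinuousOn.prodMk (by fun_prop) (ContinuousOn.prodMk (by fun_prop) ?_)
    exact ContinuousOn.div (by fun_prop) (by fun_prop) fun x hx => hx

/-- The two shears. -/
def shear (D : ModelData) : Bool → OpenPartialHomeomorph (ℝ × ℝ × ℂ) (Cn 2)
  | false => shearF D
  | true => shearI D

/-- The complex charts. -/
def chart (i : Idx) : OpenPartialHomeomorph (Surf D) (Cn 2) :=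
  ((liftR i.1).prod ((liftR i.2.1).prod (fib i.2.2))).symm.trans (shear D i.2.2)

/-- First real lift. -/
def la (i : Idx) (x : Surf D) : ℝ := (liftR i.1).symm x.1

/-- Second real lift. -/
def lb (i : Idx) (x : Surf D) : ℝ := (liftR i.2.1).symm x.2.1

lemma chart_apply_false {c d : Fin 2} {x : Surf D} :
    chart (c, d, false) x = !₂[zOf D (la (c, d, false) x) (lb (c, d, false) x),
      (fib false).symm x.2.2 + lb (c, d, false) x * D.α] := rfl

lemma chart_apply_true {c d : Fin 2} {x : Surf D} :
    chart (c, d, true) x = !₂[zOf D (la (c, d, true) x) (lb (c, d, true) x),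
      x.2.2.elim 0 (fun p => p⁻¹) /
        (1 + lb (c, d, true) x * D.α * x.2.2.elim 0 (fun p => p⁻¹))] := rfl

/-- The vertical translation number between two charts at a point. -/
def kk (i j : Idx) (x : Surf D) : ℤ := round (lb j x - lb i x)

/-- The horizontal translation number between two charts at a point. -/
def mm (i j : Idx) (x : Surf D) : ℤ := round (la j x - la i x)

lemma mem_lifts {i : Idx} {x : Surf D} (hx : x ∈ (chart i).source) :
    x.1 ∈ (liftR i.1).target ∧ x.2.1 ∈ (liftR i.2.1).target ∧ x.2.2 ∈ (fib i.2.2).target :=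
  ⟨hx.1.1, hx.1.2.1, hx.1.2.2⟩

lemma exists_lift {c c' : Fin 2} {u : UnitAddCircle} (h : u ∈ (liftR c).target)
    (h' : u ∈ (liftR c').target) :
    ∃ n : ℤ, (liftR c').symm u = (liftR c).symm u + n := by
  have e : (((liftR c).symm u : ℝ) : UnitAddCircle) = u := (liftR c).right_inv h
  have e' : (((liftR c').symm u : ℝ) : UnitAddCircle) = u := (liftR c').right_inv h'
  obtain ⟨n, hn⟩ := AddSubgroup.mem_zmultiples_iff.1
    ((QuotientAddGroup.eq_iff_sub_mem).1 (e'.trans e.symm))
  refine ⟨n, ?_⟩
  simp only [zsmul_eq_mul, mul_one] at hn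
  linarith

variable {i j l : Idx} {x : Surf D}

lemma lb_eq (hi : x ∈ (chart i).source) (hj : x ∈ (chart j).source) :
    lb j x = lb i x + kk i j x := by
  obtain ⟨n, hn⟩ := exists_lift (mem_lifts hi).2.1 (mem_lifts hj).2.1
  rw [kk, show lb j x - lb i x = (n : ℝ) by simp [lb, hn], round_intCast]
  exact hn

lemma la_eq (hi : x ∈ (chart i).source) (hj : x ∈ (chart j).source) :
    la j x = la i x + mm i j x := by
  obtain ⟨n, hn⟩ := exists_lift (mem_lifts hi).1 (mem_lifts hj).1
  rw [mm, show la j x - la i x = (n : ℝ) by simp [la, hn], round_intCast]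
  exact hn

lemma kk_self : kk i i x = 0 := by simp [kk]

lemma mm_self : mm i i x = 0 := by simp [mm]

lemma kk_add (hi : x ∈ (chart i).source) (hj : x ∈ (chart j).source) (hl : x ∈ (chart l).source) :
    kk i l x = kk i j x + kk j l x := by
  have h1 := lb_eq hi hj
  have h2 := lb_eq hj hl
  have h3 := lb_eq hi hl
  exact_mod_cast (show (kk i l x : ℝ) = kk i j x + kk j l x by linarith)

lemma zOf_eq (hi : x ∈ (chart i).source) (hj : x ∈ (chart j).source) :
    zOf D (la j x) (lb j x) = zOf D (la i x) (lb i x) + mm i j x + kk i j x * D.τ := by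
  rw [zOf, zOf, la_eq hi hj, lb_eq hi hj]
  push_cast
  ring

lemma continuousOn_la (i : Idx) : ContinuousOn (la (D := D) i) (chart i).source := fun x hx =>
  ((((liftR i.1).continuousAt_symm (mem_lifts hx).1)).comp
    (f := fun y : Surf D => y.1) continuous_fst.continuousAt).continuousWithinAt

lemma continuousOn_lb (i : Idx) : ContinuousOn (lb (D := D) i) (chart i).source := fun x hx =>
  ((((liftR i.2.1).continuousAt_symm (mem_lifts hx).2.1)).comp
    (f := fun y : Surf D => y.2.1) (continuous_fst.comp continuous_snd).continuousAt).continuousWithinAt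

lemma eventually_kk_mm (hi : x ∈ (chart i).source) (hj : x ∈ (chart j).source) :
    ∀ᶠ y in 𝓝 x, kk i j y = kk i j x ∧ mm i j y = mm i j x := by
  have hn : (chart i).source ∩ (chart j).source ∈ 𝓝 x :=
    ((chart i).open_source.inter (chart j).open_source).mem_nhds ⟨hi, hj⟩
  have hb : ContinuousAt (fun y : Surf D => lb j y - lb i y) x :=
    ((continuousOn_lb j).continuousAt ((chart j).open_source.mem_nhds hj)).sub
      ((continuousOn_lb i).continuousAt ((chart i).open_source.mem_nhds hi))
  have ha : ContinuousAt (fun y : Surf D => la j y - la i y) x :=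
    ((continuousOn_la j).continuousAt ((chart j).open_source.mem_nhds hj)).sub
      ((continuousOn_la i).continuousAt ((chart i).open_source.mem_nhds hi))
  have one : (0 : ℝ) < 1 := one_pos
  filter_upwards [hn, hb.eventually (Metric.ball_mem_nhds _ one),
    ha.eventually (Metric.ball_mem_nhds _ one)] with y hy h1 h2
  rw [Real.dist_eq, lb_eq hy.1 hy.2, lb_eq hi hj, add_sub_cancel_left,
    add_sub_cancel_left] at h1
  rw [Real.dist_eq, la_eq hy.1 hy.2, la_eq hi hj, add_sub_cancel_left,
    add_sub_cancel_left] at h2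
  exact ⟨sub_eq_zero.1 (Int.abs_lt_one_iff.1 (by exact_mod_cast h1)),
    sub_eq_zero.1 (Int.abs_lt_one_iff.1 (by exact_mod_cast h2))⟩

/-- The fibre coordinate after the translation by `A`, from kind to kind. -/
def step (A : ℂ) : Bool → Bool → ℂ → ℂ
  | false, false => fun w => w + A
  | false, true => fun w => (w + A)⁻¹
  | true, false => fun w => (1 + A * w) / w
  | true, true => fun w => w / (1 + A * w)

/-- The condition for `step` to be regular. -/
def stepOK (A : ℂ) : Bool → Bool → ℂ → Prop
  | false, false => fun _ => True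
  | false, true => fun w => w + A ≠ 0
  | true, false => fun w => w ≠ 0
  | true, true => fun w => 1 + A * w ≠ 0

lemma chart_zero (i : Idx) (x : Surf D) : chart i x 0 = zOf D (la i x) (lb i x) := by
  obtain ⟨c, d, _ | _⟩ := i
  · simp [chart_apply_false]
  · simp [chart_apply_true]

/-- The finite coordinate of a point that is not at infinity. -/
def tOf (i : Idx) (x : Surf D) (p : ℂ) : ℂ := p + lb i x * D.α

lemma chart_one_false {c d : Fin 2} {p : ℂ} (hp : x.2.2 = (p : OnePoint ℂ)) :
    chart (c, d, false) x 1 = tOf (c, d, false) x p := by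
  have h : (fib false).symm x.2.2 = p := by
    rw [hp]
    exact (fib false).left_inv (x := p) trivial
  simp [chart_apply_false, h, tOf]

lemma chart_one_true {c d : Fin 2} {p : ℂ} (hp : x.2.2 = (p : OnePoint ℂ))
    (hx : x ∈ (chart (c, d, true)).source) :
    tOf (c, d, true) x p ≠ 0 ∧ chart (c, d, true) x 1 = (tOf (c, d, true) x p)⁻¹ := by
  have hp0 : p ≠ 0 := by
    have h := (mem_lifts hx).2.2
    rw [hp] at h
    simpa [fib, fibInf] using h
  have hs : 1 + (lb (c, d, true) x : ℂ) * D.α * x.2.2.elim 0 (fun p => p⁻¹) ≠ 0 := hx.2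
  rw [hp] at hs
  simp only [OnePoint.elim_some] at hs
  have e : tOf (c, d, true) x p = p * (1 + lb (c, d, true) x * D.α * p⁻¹) := by
    rw [tOf]; field_simp
  refine ⟨by rw [e]; exact mul_ne_zero hp0 hs, ?_⟩
  simp only [chart_apply_true, Matrix.cons_val_one, Matrix.cons_val_fin_one, hp, OnePoint.elim_some]
  rw [e, mul_inv, div_eq_mul_inv]

lemma chart_one_infty {c d : Fin 2} (hp : x.2.2 = OnePoint.infty) : chart (c, d, true) x 1 = 0 := by
  simp [chart_apply_true, hp]

lemma kind_of_infty (hp : x.2.2 = OnePoint.infty) (hx : x ∈ (chart i).source) : i.2.2 = true := by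
  obtain ⟨c, d, _ | _⟩ := i
  · have h := (mem_lifts hx).2.2
    rw [hp] at h
    simp [fib] at h
  · rfl

lemma chart_transition (hi : x ∈ (chart i).source) (hj : x ∈ (chart j).source) :
    chart j x = !₂[chart i x 0 + mm i j x + kk i j x * D.τ,
        step (kk i j x * D.α) i.2.2 j.2.2 (chart i x 1)]
      ∧ stepOK (kk i j x * D.α) i.2.2 j.2.2 (chart i x 1) := by
  have h0 : chart j x 0 = chart i x 0 + mm i j x + kk i j x * D.τ := by
    rw [chart_zero, chart_zero, zOf_eq hi hj]
  suffices h : chart j x 1 = step (kk i j x * D.α) i.2.2 j.2.2 (chart i x 1)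
      ∧ stepOK (kk i j x * D.α) i.2.2 j.2.2 (chart i x 1) by
    refine ⟨?_, h.2⟩
    ext n
    fin_cases n
    · simpa using h0
    · simpa using h.1
  rcases hp : x.2.2 with _ | p
  · obtain ⟨c, d, ki⟩ := i
    obtain ⟨c', d', kj⟩ := j
    obtain rfl : ki = true := kind_of_infty hp hi
    obtain rfl : kj = true := kind_of_infty hp hj
    simp [step, stepOK, chart_one_infty hp]
  · have hp' : x.2.2 = (p : OnePoint ℂ) := hp
    have ht : tOf j x p = tOf i x p + kk i j x * D.α := by
      rw [tOf, tOf, lb_eq hi hj]; push_cast; ring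
    obtain ⟨c, d, _ | _⟩ := i <;> obtain ⟨c', d', _ | _⟩ := j
    · simp [step, stepOK, chart_one_false hp', ht]
    · obtain ⟨hne, he⟩ := chart_one_true hp' hj
      rw [he, chart_one_false hp', ht]
      rw [ht] at hne
      exact ⟨rfl, hne⟩
    · obtain ⟨hne, he⟩ := chart_one_true hp' hi
      rw [he, chart_one_false hp', ht]
      refine ⟨?_, inv_ne_zero hne⟩
      simp only [step]
      field_simp
    · obtain ⟨hni, hei⟩ := chart_one_true hp' hi
      obtain ⟨hnj, hej⟩ := chart_one_true hp' hj
      rw [hei, hej, ht]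
      rw [ht] at hnj
      generalize tOf (c, d, true) x p = t at hni hnj ⊢
      have e : 1 + ((kk (c, d, true) (c', d', true) x : ℂ) * D.α) * t⁻¹
          = (t + kk (c, d, true) (c', d', true) x * D.α) * t⁻¹ := by field_simp
      refine ⟨?_, ?_⟩
      · simp only [step]
        rw [e]
        field_simp
      · simp only [stepOK]
        rw [e]
        exact mul_ne_zero hnj (inv_ne_zero hni)

/-- An index of a chart around a point. -/
def idxAt (x : Surf D) : Idx :=
  (if x.1 = ((0 : ℝ) : UnitAddCircle) then 1 else 0,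
    if x.2.1 = ((0 : ℝ) : UnitAddCircle) then 1 else 0,
    x.2.2.elim true fun _ => false)

lemma mem_liftR (u : UnitAddCircle) :
    u ∈ (liftR (if u = ((0 : ℝ) : UnitAddCircle) then 1 else 0)).target := by
  simp only [liftR, AddCircle.openPartialHomeomorphCoe_target, Set.mem_compl_iff,
    Set.mem_singleton_iff]
  split_ifs with h
  · subst h
    intro hh
    obtain ⟨n, hn⟩ := AddSubgroup.mem_zmultiples_iff.1 ((QuotientAddGroup.eq_iff_sub_mem).1 hh)
    simp only [cen, zsmul_eq_mul, mul_one, Matrix.cons_val_one, Matrix.cons_val_zero] at hn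
    have h2 : ((2 * n : ℤ) : ℝ) = ((-1 : ℤ) : ℝ) := by push_cast; linarith
    have := Int.cast_injective (α := ℝ) h2
    omega
  · simpa [cen] using h

lemma mem_idxAt (x : Surf D) : x ∈ (chart (idxAt x)).source := by
  have h1 : ∀ q : OnePoint ℂ, q ∈ (fib (q.elim true fun _ => false)).target := fun q => by
    induction q using OnePoint.rec with
    | infty => simp [fib, fibInf]
    | coe p => simp [fib]
  have h2 : ∀ (q : OnePoint ℂ) (r s : ℝ), (r, s, (fib (q.elim true fun _ => false)).symm q) ∈
      (shear D (q.elim true fun _ => false)).source := fun q r s => by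
    induction q using OnePoint.rec with
    | infty => simp [shear, shearI, fib, fibInf]
    | coe p => simp [shear, shearF]
  exact ⟨⟨mem_liftR x.1, mem_liftR x.2.1, h1 _⟩, h2 _ _ _⟩

instance : ChartedSpace (Cn 2) (Surf D) where
  atlas := Set.range (chart (D := D))
  chartAt x := chart (idxAt x)
  mem_chart_source := mem_idxAt
  chart_mem_atlas x := ⟨_, rfl⟩

lemma chartAt_eq (x : Surf D) : chartAt (Cn 2) x = chart (idxAt x) := rfl

lemma contDiffAt_step {A w : ℂ} {ki kj : Bool} (h : stepOK A ki kj w) {n : ℕ∞ω} :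
    ContDiffAt ℂ n (step A ki kj) w := by
  cases ki <;> cases kj <;> simp only [step, stepOK] at h ⊢
  · fun_prop
  · exact (contDiffAt_id.add contDiffAt_const).inv h
  · exact (contDiffAt_const.add (contDiffAt_const.mul contDiffAt_id)).div contDiffAt_id h
  · exact contDiffAt_id.div (contDiffAt_const.add (contDiffAt_const.mul contDiffAt_id)) h

instance : IsManifold 𝓘(ℂ, Cn 2) ω (Surf D) := by
  refine isManifold_of_contDiffOn _ _ _ ?_
  rintro _ _ ⟨i, rfl⟩ ⟨j, rfl⟩
  simp only [modelWithCornersSelf_coe, modelWithCornersSelf_coe_symm, Function.id_comp,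
    Function.comp_id, Set.range_id, Set.inter_univ, Set.preimage_id]
  intro w hw
  have hi : (chart (D := D) i).symm w ∈ (chart i).source := (chart i).map_target hw.1
  have hj : (chart (D := D) i).symm w ∈ (chart j).source := hw.2
  have hw' : chart i ((chart (D := D) i).symm w) = w := (chart i).right_inv hw.1
  obtain ⟨-, hok⟩ := chart_transition hi hj
  rw [hw'] at hok
  refine ContDiffAt.contDiffWithinAt ?_
  set x := (chart (D := D) i).symm w with hx
  have hev : ∀ᶠ v in 𝓝 w, ((chart (D := D) i).symm ≫ₕ chart j) v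
      = !₂[v 0 + mm i j x + kk i j x * D.τ, step (kk i j x * D.α) i.2.2 j.2.2 (v 1)] := by
    have hc := (chart (D := D) i).continuousAt_symm hw.1
    filter_upwards [((chart (D := D) i).symm ≫ₕ chart j).open_source.mem_nhds hw,
      hc.eventually (eventually_kk_mm hi hj)] with v hv he
    have h1 := (chart_transition ((chart (D := D) i).map_target hv.1) hv.2).1
    rw [(chart (D := D) i).right_inv hv.1, he.1, he.2] at h1
    simpa using h1
  refine ContDiffAt.congr_of_eventuallyEq ?_ hev
  rw [contDiffAt_euclidean]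
  intro n
  fin_cases n
  · simp only [Fin.zero_eta, Matrix.cons_val_zero]
    fun_prop
  · simp only [Fin.mk_one, Matrix.cons_val_one, Matrix.cons_val_fin_one]
    exact (contDiffAt_step hok).comp w (by fun_prop)

end Surf

end Vale.Agent.P296
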